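import Vale.Agent.P113.Comp

/-! Computable real-valued families through shrinking rational intervals. -/

namespace Vale.Agent.P113

open Filter Topology

/-- `g` has computable rational approximations with computable radii tending to zero. -/
@[fun_prop] def CR {α : Type} [Primcodable α] (g : α → ℝ) : Prop :=
  ∃ c r : α × ℕ → Q, Computable c ∧ Computable r ∧
    (∀ a m, |qv (c (a, m)) - g a| ≤ qv (r (a, m))) ∧
    ∀ a, Tendsto (fun m => qv (r (a, m))) atTop (𝓝 0)

variable {α β : Type} [Primcodable α] [Primcodable β]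

theorem CR.of_eq {g h : α → ℝ} (hg : CR g) (H : ∀ a, g a = h a) : CR h :=
  (funext H : g = h) ▸ hg

theorem CR.comp {g : β → ℝ} {f : α → β} (hg : CR g) (hf : Computable f) :
    CR (fun a => g (f a)) := by
  obtain ⟨c, r, hc, hr, h1, h2⟩ := hg
  exact ⟨fun z => c (f z.1, z.2), fun z => r (f z.1, z.2), by fun_prop, by fun_prop,
    fun a m => h1 (f a) m, fun a => h2 (f a)⟩

@[fun_prop] theorem CR.qv {f : α → Q} (hf : Computable f) : CR (fun a => qv (f a)) :=
  ⟨fun z => f z.1, fun _ => qnat 0, by fun_prop, by fun_prop, fun a m => by simp, fun a => by simp⟩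

@[fun_prop] theorem CR.natCast {f : α → ℕ} (hf : Computable f) : CR (fun a => (f a : ℝ)) :=
  (CR.qv (f := fun a => qnat (f a)) (by fun_prop)).of_eq fun a => by simp

theorem CR.invNat {f : α → ℕ} (hf : Computable f) : CR (fun a => (f a : ℝ)⁻¹) := by
  refine (CR.qv (f := fun a => cond (Nat.beq (f a) 0) (qnat 0) (qinv (qnat (f a))))
    (by fun_prop)).of_eq fun a => ?_
  rcases Nat.eq_zero_or_pos (f a) with h | h
  · simp [h]
  · have : Nat.beq (f a) 0 = false := by
      rw [Bool.eq_false_iff]; simp; omega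
    rw [this, cond_false, qv_inv _ (by simpa using h)]; simp

theorem tendsto_of_approx {c r : ℕ → ℝ} {g : ℝ} (h1 : ∀ m, |c m - g| ≤ r m)
    (h2 : Tendsto r atTop (𝓝 0)) : Tendsto c atTop (𝓝 g) := by
  rw [tendsto_iff_dist_tendsto_zero]
  exact squeeze_zero (fun _ => dist_nonneg) (fun m => by rw [Real.dist_eq]; exact h1 m) h2

@[fun_prop] theorem CR.add {g h : α → ℝ} (hg : CR g) (hh : CR h) : CR (fun a => g a + h a) := by
  obtain ⟨c, r, hc, hr, h1, h2⟩ := hg
  obtain ⟨c', r', hc', hr', h1', h2'⟩ := hh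
  refine ⟨fun z => qadd (c z) (c' z), fun z => qadd (r z) (r' z), by fun_prop, by fun_prop,
    fun a m => ?_, fun a => ?_⟩
  · simp only [qv_add]
    have := abs_add_le (P113.qv (c (a, m)) - g a) (P113.qv (c' (a, m)) - h a)
    have e : P113.qv (c (a, m)) + P113.qv (c' (a, m)) - (g a + h a)
        = P113.qv (c (a, m)) - g a + (P113.qv (c' (a, m)) - h a) := by ring
    rw [e]; linarith [h1 a m, h1' a m]
  · simpa using (h2 a).add (h2' a)

@[fun_prop] theorem CR.neg {g : α → ℝ} (hg : CR g) : CR (fun a => -g a) := by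
  obtain ⟨c, r, hc, hr, h1, h2⟩ := hg
  refine ⟨fun z => qneg (c z), r, by fun_prop, hr, fun a m => ?_, h2⟩
  simp only [qv_neg]
  rw [← abs_neg]; convert h1 a m using 2; ring

@[fun_prop] theorem CR.sub {g h : α → ℝ} (hg : CR g) (hh : CR h) : CR (fun a => g a - h a) :=
  (hg.add hh.neg).of_eq fun a => by ring

/-- radius of the product interval -/
def rmul (c r c' r' : Q) : Q := qadd (qmul (qabs c) r') (qadd (qmul (qabs c') r) (qmul r r'))

@[fun_prop] theorem c_rmul {f g h k : α → Q} (hf : Computable f) (hg : Computable g)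
    (hh : Computable h) (hk : Computable k) :
    Computable (fun a => rmul (f a) (g a) (h a) (k a)) := by unfold rmul; fun_prop

theorem rmul_bound {c r c' r' : Q} {x y : ℝ} (h1 : |qv c - x| ≤ qv r) (h2 : |qv c' - y| ≤ qv r') :
    |qv (qmul c c') - x * y| ≤ qv (rmul c r c' r') := by
  simp only [rmul, qv_add, qv_mul, qv_abs]
  have e : qv c * qv c' - x * y
      = qv c * (qv c' - y) + (qv c' * (qv c - x) + -((qv c - x) * (qv c' - y))) := by ring
  rw [e]
  refine (abs_add_le _ _).trans (add_le_add ?_ ((abs_add_le _ _).trans (add_le_add ?_ ?_)))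
  · rw [abs_mul]; exact mul_le_mul_of_nonneg_left h2 (abs_nonneg _)
  · rw [abs_mul]; exact mul_le_mul_of_nonneg_left h1 (abs_nonneg _)
  · rw [abs_neg, abs_mul]
    exact mul_le_mul h1 h2 (abs_nonneg _) ((abs_nonneg _).trans h1)

theorem rmul_tendsto {c r c' r' : ℕ → Q} {x y : ℝ} (h1 : ∀ m, |qv (c m) - x| ≤ qv (r m))
    (h2 : ∀ m, |qv (c' m) - y| ≤ qv (r' m)) (t1 : Tendsto (fun m => qv (r m)) atTop (𝓝 0))
    (t2 : Tendsto (fun m => qv (r' m)) atTop (𝓝 0)) :
    Tendsto (fun m => qv (rmul (c m) (r m) (c' m) (r' m))) atTop (𝓝 0) := by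
  have s1 := (tendsto_of_approx h1 t1).abs
  have s2 := (tendsto_of_approx h2 t2).abs
  simpa [rmul] using (s1.mul t2).add ((s2.mul t1).add (t1.mul t2))

@[fun_prop] theorem CR.mul {g h : α → ℝ} (hg : CR g) (hh : CR h) : CR (fun a => g a * h a) := by
  obtain ⟨c, r, hc, hr, h1, h2⟩ := hg
  obtain ⟨c', r', hc', hr', h1', h2'⟩ := hh
  exact ⟨fun z => qmul (c z) (c' z), fun z => rmul (c z) (r z) (c' z) (r' z), by fun_prop,
    by fun_prop, fun a m => rmul_bound (h1 a m) (h1' a m),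
    fun a => rmul_tendsto (h1 a) (h1' a) (h2 a) (h2' a)⟩

@[fun_prop] theorem CR.divNat {g : α → ℝ} {f : α → ℕ} (hg : CR g) (hf : Computable f) :
    CR (fun a => g a / (f a : ℝ)) :=
  (hg.mul (CR.invNat hf)).of_eq fun a => by rw [div_eq_mul_inv]

@[fun_prop] theorem CR.cond {b : α → Bool} {g h : α → ℝ} (hb : Computable b) (hg : CR g)
    (hh : CR h) : CR (fun a => cond (b a) (g a) (h a)) := by
  obtain ⟨c, r, hc, hr, h1, h2⟩ := hg
  obtain ⟨c', r', hc', hr', h1', h2'⟩ := hh
  refine ⟨fun z => _root_.cond (b z.1) (c z) (c' z), fun z => _root_.cond (b z.1) (r z) (r' z),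
    by fun_prop, by fun_prop, fun a m => ?_, fun a => ?_⟩
  · cases h : b a <;> simp [h, h1 a m, h1' a m]
  · cases h : b a <;> simp [h, h2 a, h2' a]

theorem CR.zero : CR (fun _ : α => (0 : ℝ)) :=
  (CR.natCast (f := fun _ => 0) (by fun_prop)).of_eq fun a => by simp
theorem CR.one : CR (fun _ : α => (1 : ℝ)) :=
  (CR.natCast (f := fun _ => 1) (by fun_prop)).of_eq fun a => by simp

theorem CR.sum {g : α × ℕ → ℝ} {n : α → ℕ} (hg : CR g) (hn : Computable n) :
    CR (fun a => ∑ i ∈ Finset.range (n a), g (a, i)) := by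
  obtain ⟨c, r, hc, hr, h1, h2⟩ := hg
  have key : ∀ F : (α × ℕ) × ℕ → Q, Computable F → ∃ G : α × ℕ → Q, Computable G ∧
      ∀ a m, P113.qv (G (a, m)) = ∑ i ∈ Finset.range (n a), P113.qv (F ((a, i), m)) := by
    intro F hF
    refine ⟨fun z => Nat.rec (motive := fun _ => Q) (qnat 0)
      (fun y IH => (fun w : (α × ℕ) × ℕ × Q => qadd w.2.2 (F ((w.1.1, w.2.1), w.1.2))) (z, y, IH))
      (n z.1), c_rec (n := fun z : α × ℕ => n z.1) (g := fun _ => qnat 0)
        (h := fun w : (α × ℕ) × ℕ × Q => qadd w.2.2 (F ((w.1.1, w.2.1), w.1.2)))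
        (by fun_prop) (by fun_prop) (by fun_prop), fun a m => ?_⟩
    dsimp only
    induction n a with
    | zero => simp
    | succ k ih => rw [Finset.sum_range_succ, ← ih]; simp
  obtain ⟨C, hC, eC⟩ := key c hc
  obtain ⟨R, hR, eR⟩ := key r hr
  refine ⟨C, R, hC, hR, fun a m => ?_, fun a => ?_⟩
  · rw [eC, eR, ← Finset.sum_sub_distrib]
    exact (Finset.abs_sum_le_sum_abs _ _).trans (Finset.sum_le_sum fun i _ => h1 _ _)
  · simp only [eR]
    simpa using tendsto_finsetSum (Finset.range (n a)) fun i _ => h2 (a, i)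

theorem CR.prod {g : α × ℕ → ℝ} {n : α → ℕ} (hg : CR g) (hn : Computable n) :
    CR (fun a => ∏ i ∈ Finset.range (n a), g (a, i)) := by
  obtain ⟨c, r, hc, hr, h1, h2⟩ := hg
  obtain ⟨F, hF0, hFs⟩ : ∃ F : α × ℕ → ℕ → Q × Q, (∀ z, F z 0 = (qnat 1, qnat 0)) ∧
      (∀ z k, F z (k + 1) = (qmul (F z k).1 (c ((z.1, k), z.2)),
        rmul (F z k).1 (F z k).2 (c ((z.1, k), z.2)) (r ((z.1, k), z.2)))) :=
    ⟨fun z k => Nat.rec (motive := fun _ => Q × Q) (qnat 1, qnat 0)
      (fun y IH => (qmul IH.1 (c ((z.1, y), z.2)),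
        rmul IH.1 IH.2 (c ((z.1, y), z.2)) (r ((z.1, y), z.2)))) k, fun _ => rfl, fun _ _ => rfl⟩
  have hF : Computable (fun z : α × ℕ => F z (n z.1)) := by
    refine (c_rec (n := fun z : α × ℕ => n z.1) (g := fun _ => (qnat 1, qnat 0))
      (h := fun w : (α × ℕ) × ℕ × (Q × Q) => (qmul w.2.2.1 (c ((w.1.1, w.2.1), w.1.2)),
        rmul w.2.2.1 w.2.2.2 (c ((w.1.1, w.2.1), w.1.2)) (r ((w.1.1, w.2.1), w.1.2))))
      (by fun_prop) (by fun_prop) (by fun_prop)).of_eq fun z => ?_
    induction n z.1 with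
    | zero => rw [hF0]; rfl
    | succ k ih => rw [hFs, ← ih]
  have key : ∀ a k, (∀ m, |P113.qv (F (a, m) k).1 - ∏ i ∈ Finset.range k, g (a, i)|
      ≤ P113.qv (F (a, m) k).2) ∧ Tendsto (fun m => P113.qv (F (a, m) k).2) atTop (𝓝 0) := by
    intro a k
    induction k with
    | zero => simp [hF0]
    | succ k ih =>
      simp only [hFs, Finset.prod_range_succ]
      exact ⟨fun m => rmul_bound (ih.1 m) (h1 (a, k) m),
        rmul_tendsto (c := fun m => (F (a, m) k).1) (r := fun m => (F (a, m) k).2)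
          (c' := fun m => c ((a, k), m)) (r' := fun m => r ((a, k), m))
          ih.1 (h1 (a, k)) ih.2 (h2 (a, k))⟩
  exact ⟨fun z => (F z (n z.1)).1, fun z => (F z (n z.1)).2, c_fst hF, c_snd hF,
    fun a m => (key a (n a)).1 m, fun a => (key a (n a)).2⟩

@[fun_prop] theorem CR.pow {g : α → ℝ} {n : α → ℕ} (hg : CR g) (hn : Computable n) :
    CR (fun a => g a ^ n a) :=
  (CR.prod (g := fun z : α × ℕ => g z.1) (hg.comp (by fun_prop)) hn).of_eq fun a => by simp

/-- the inverse of a family bounded below by one -/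
theorem CR.inv {g : α → ℝ} (hg : CR g) (h : ∀ a, 1 ≤ g a) : CR (fun a => (g a)⁻¹) := by
  obtain ⟨c, r, hc, hr, h1, h2⟩ := hg
  refine ⟨fun z => _root_.cond (qle (qnat 1) (c z)) (qinv (c z)) (qnat 1), r, by fun_prop, hr,
    fun a m => ?_, h2⟩
  have key : ∀ x : ℝ, 1 ≤ x → |x - g a| ≤ P113.qv (r (a, m)) →
      |x⁻¹ - (g a)⁻¹| ≤ P113.qv (r (a, m)) := by
    intro x hx hxr
    have ha := h a
    have e : x⁻¹ - (g a)⁻¹ = -(x - g a) * (x * g a)⁻¹ := by field_simp; ring
    rw [e, abs_mul, abs_neg]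
    have : |(x * g a)⁻¹| ≤ 1 := by
      rw [abs_of_pos (by positivity)]
      exact inv_le_one_of_one_le₀ (one_le_mul_of_one_le_of_one_le hx ha)
    nlinarith [abs_nonneg (x - g a), abs_nonneg (x * g a)⁻¹]
  cases hb : qle (qnat 1) (c (a, m))
  · have h3 : ¬ (1 ≤ P113.qv (c (a, m))) := by
      intro h'
      have := (qle_iff (qnat 1) (c (a, m))).2 (by simpa using h')
      simp [hb] at this
    simp only [hb, cond_false, qv_nat, Nat.cast_one]
    have := key 1 le_rfl (by
      have := h1 a m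
      have ha := h a
      rw [abs_le] at this ⊢
      constructor <;> linarith [this.1, this.2])
    simpa using this
  · have h3 : 1 ≤ P113.qv (c (a, m)) := by simpa using (qle_iff _ _).1 hb
    simp only [hb, cond_true]
    rw [qv_inv _ (by linarith)]
    exact key _ h3 (h1 a m)

/-- normal form: approximation to a prescribed accuracy -/
theorem CR.normal {g : α → ℝ} (hg : CR g) : ∃ G : α × Q → Q, Computable G ∧
    ∀ a ε, 0 < P113.qv ε → |P113.qv (G (a, ε)) - g a| ≤ P113.qv ε := by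
  obtain ⟨c, r, hc, hr, h1, h2⟩ := hg
  obtain ⟨F, hF⟩ : ∃ F : α × Q → ℕ → Option Q, ∀ z m, F z m =
      _root_.cond (qle z.2 (qnat 0)) (some (qnat 0))
        (_root_.cond (qle (r (z.1, m)) z.2) (some (c (z.1, m))) none) := ⟨_, fun _ _ => rfl⟩
  have hFc : Computable₂ F := by
    have h0 : Computable (fun w : (α × Q) × ℕ => some (c (w.1.1, w.2))) :=
      Computable.option_some.comp (by fun_prop)
    have : Computable (fun w : (α × Q) × ℕ => _root_.cond (qle w.1.2 (qnat 0)) (some (qnat 0))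
        (_root_.cond (qle (r (w.1.1, w.2)) w.1.2) (some (c (w.1.1, w.2))) none)) := by fun_prop
    exact this.of_eq fun w => (hF _ _).symm
  have hdom : ∀ z, (Nat.rfindOpt (F z)).Dom := by
    intro z
    rw [Nat.rfindOpt_dom]
    by_cases hz : P113.qv z.2 ≤ 0
    · have : qle z.2 (qnat 0) = true := (qle_iff _ _).2 (by simpa using hz)
      exact ⟨0, qnat 0, by simp [hF, this]⟩
    · have h0 : qle z.2 (qnat 0) = false := by
        rw [Bool.eq_false_iff]; intro h'; exact hz (by simpa using (qle_iff _ _).1 h')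
      obtain ⟨m, hm⟩ := ((h2 z.1).eventually (ge_mem_nhds (not_le.1 hz))).exists
      have : qle (r (z.1, m)) z.2 = true := (qle_iff _ _).2 hm
      exact ⟨m, c (z.1, m), by simp [hF, this, h0]⟩
  refine ⟨fun z => (Nat.rfindOpt (F z)).get (hdom z), ?_, fun a ε hε => ?_⟩
  · exact (Partrec.rfindOpt hFc).of_eq_tot fun z => Part.get_mem _
  · obtain ⟨m, hm⟩ := Nat.rfindOpt_spec (Part.get_mem (hdom (a, ε)))
    have h0 : qle ε (qnat 0) = false := by
      rw [Bool.eq_false_iff]; intro h'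
      have := (qle_iff _ _).1 h'
      simp at this; linarith
    rw [hF, h0, cond_false] at hm
    cases hb : qle (r (a, m)) ε
    · simp [hb] at hm
    · simp only [hb, cond_true, Option.mem_def, Option.some.injEq] at hm
      dsimp only
      rw [← hm]
      exact (h1 a m).trans ((qle_iff _ _).1 hb)

theorem CR.normal' {g : α → ℝ} (hg : CR g) : ∃ G : α × Q → Q, Computable G ∧
    ∀ a ε, 0 < P113.qv ε → |P113.qv (G (a, ε)) - g a| ≤ P113.qv ε := hg.normal

theorem qv_unit (n : ℕ) : qv (1, 0, n) = 1 / ((n : ℝ) + 1) := by simp [qv]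

theorem CR.of_approx {g : α → ℝ} {G : α × ℕ → Q} (hG : Computable G) (K : ℕ)
    (h : ∀ a n, |P113.qv (G (a, n)) - g a| ≤ K / ((n : ℝ) + 1)) : CR g := by
  refine ⟨G, fun z => (K, 0, z.2), hG, by fun_prop, fun a m => by simpa [P113.qv] using h a m,
    fun a => ?_⟩
  simpa [P113.qv, div_eq_mul_inv] using
    (tendsto_one_div_add_atTop_nhds_zero_nat (𝕜 := ℝ)).const_mul (K : ℝ)

/-- fast limits of computable families are computable -/
theorem CR.lim {g : α → ℝ} {s : α × ℕ → ℝ} (hs : CR s) (K : ℕ)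
    (h : ∀ a n, |s (a, n) - g a| ≤ K / ((n : ℝ) + 1)) : CR g := by
  obtain ⟨G, hG, hG'⟩ := hs.normal'
  refine CR.of_approx (G := fun z => G (z, (1, 0, z.2))) (by fun_prop) (K + 1) fun a n => ?_
  have h1 := hG' (a, n) (1, 0, n) (by rw [qv_unit]; positivity)
  rw [qv_unit] at h1
  have h2 := h a n
  have h3 := abs_sub_le (P113.qv (G ((a, n), (1, 0, n)))) (s (a, n)) (g a)
  push_cast
  rw [add_div]; linarith

theorem CR.const_of {ν : ℝ} (h : ComputableReal ν) : CR (fun _ : α => ν) := by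
  obtain ⟨g, hg, h⟩ := h
  exact CR.of_approx (G := fun z => g z.2) (by fun_prop) 1 fun a n => by simpa using h n

theorem CR.exp_small {g : α → ℝ} (hg : CR g) (h : ∀ a, |g a| ≤ 1) :
    CR (fun a => Real.exp (g a)) := by
  have h1 : CR (fun z : (α × ℕ) × ℕ => g z.1.1 ^ z.2 / (z.2.factorial : ℝ)) :=
    CR.divNat (CR.pow (hg.comp (by fun_prop)) (by fun_prop)) (by fun_prop)
  have h2 := CR.sum (n := fun z : α × ℕ => z.2 + 1) h1 (by fun_prop)
  refine CR.lim h2 2 fun a n => ?_
  have h3 := Real.exp_bound (h a) (n := n + 1) (by omega)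
  rw [abs_sub_comm]
  refine h3.trans ?_
  have h4 : |g a| ^ (n + 1) ≤ 1 := pow_le_one₀ (abs_nonneg _) (h a)
  have h5 : (((n + 1).succ : ℕ) : ℝ) / (((n + 1).factorial : ℝ) * ((n + 1 : ℕ) : ℝ))
      ≤ 2 / ((n : ℝ) + 1) := by
    have h6 : ((n : ℝ) + 1) ≤ ((n + 1).factorial : ℝ) := by
      exact_mod_cast Nat.self_le_factorial (n + 1)
    rw [div_le_div_iff₀ (by positivity) (by positivity)]
    push_cast
    have : (0 : ℝ) ≤ n := by positivity
    nlinarith
  calc _ ≤ 1 * (2 / ((n : ℝ) + 1)) := mul_le_mul h4 h5 (by positivity) (by norm_num)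
    _ = _ := by simp

theorem CR.exp_q {f : α → Q} (hf : Computable f) : CR (fun a => Real.exp (P113.qv (f a))) := by
  have h1 : CR (fun a => P113.qv (f a) / (((f a).1 + (f a).2.1 + 1 : ℕ) : ℝ)) := by fun_prop
  have h2 := (h1.exp_small fun a => ?_).pow (n := fun a => (f a).1 + (f a).2.1 + 1) (by fun_prop)
  · refine h2.of_eq fun a => ?_
    rw [← Real.exp_nat_mul]; congr 1; field_simp
  · rw [abs_div, div_le_one (by positivity), Nat.abs_cast]
    simp only [P113.qv]
    rw [abs_div, abs_of_pos (by positivity : (0 : ℝ) < (f a).2.2 + 1), div_le_iff₀ (by positivity)]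
    push_cast
    have : (0 : ℝ) ≤ (f a).1 := by positivity
    have : (0 : ℝ) ≤ (f a).2.1 := by positivity
    have : (0 : ℝ) ≤ (f a).2.2 := by positivity
    rw [abs_le]; constructor <;> nlinarith

end Vale.Agent.P113
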