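import Vale.Agent.P113.Defs

/-! Automation lemmas for computable functions, and arithmetic on names of rationals. -/

namespace Vale.Agent.P113

attribute [fun_prop] Computable ComputablePred

section
variable {α β γ σ : Type} [Primcodable α] [Primcodable β] [Primcodable γ] [Primcodable σ]

@[fun_prop] theorem c_id : Computable (fun a : α => a) := Computable.id
@[fun_prop] theorem c_const (s : σ) : Computable (fun _ : α => s) := Computable.const s
@[fun_prop] theorem c_comp {f : β → σ} {g : α → β} (hf : Computable f) (hg : Computable g) :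
    Computable (fun a => f (g a)) := hf.comp hg
@[fun_prop] theorem c_pair {f : α → β} {g : α → γ} (hf : Computable f) (hg : Computable g) :
    Computable (fun a => (f a, g a)) := hf.pair hg
@[fun_prop] theorem c_fst {f : α → β × γ} (hf : Computable f) :
    Computable (fun a => (f a).1) := Computable.fst.comp hf
@[fun_prop] theorem c_snd {f : α → β × γ} (hf : Computable f) :
    Computable (fun a => (f a).2) := Computable.snd.comp hf
@[fun_prop] theorem c_add {f g : α → ℕ} (hf : Computable f) (hg : Computable g) :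
    Computable (fun a => f a + g a) := Primrec.nat_add.to_comp.comp hf hg
@[fun_prop] theorem c_sub {f g : α → ℕ} (hf : Computable f) (hg : Computable g) :
    Computable (fun a => f a - g a) := Primrec.nat_sub.to_comp.comp hf hg
@[fun_prop] theorem c_mul {f g : α → ℕ} (hf : Computable f) (hg : Computable g) :
    Computable (fun a => f a * g a) := Primrec.nat_mul.to_comp.comp hf hg
@[fun_prop] theorem c_div {f g : α → ℕ} (hf : Computable f) (hg : Computable g) :
    Computable (fun a => f a / g a) := Primrec.nat_div.to_comp.comp hf hg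
@[fun_prop] theorem c_mod {f g : α → ℕ} (hf : Computable f) (hg : Computable g) :
    Computable (fun a => f a % g a) := Primrec.nat_mod.to_comp.comp hf hg
@[fun_prop] theorem c_min {f g : α → ℕ} (hf : Computable f) (hg : Computable g) :
    Computable (fun a => min (f a) (g a)) := Primrec.nat_min.to_comp.comp hf hg
@[fun_prop] theorem c_pow {f g : α → ℕ} (hf : Computable f) (hg : Computable g) :
    Computable (fun a => f a ^ g a) :=
  (Primrec₂.unpaired'.1 Nat.Primrec.pow).to_comp.comp hf hg
@[fun_prop] theorem c_cond {c : α → Bool} {f g : α → σ} (hc : Computable c) (hf : Computable f)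
    (hg : Computable g) : Computable (fun a => cond (c a) (f a) (g a)) := Computable.cond hc hf hg
@[fun_prop] theorem c_getD {l : α → List β} {n : α → ℕ} (d : β) (hl : Computable l)
    (hn : Computable n) : Computable (fun a => (l a).getD (n a) d) :=
  (Primrec.list_getD d).to_comp.comp hl hn
@[fun_prop] theorem c_length {l : α → List β} (hl : Computable l) :
    Computable (fun a => (l a).length) := Computable.list_length.comp hl
@[fun_prop] theorem c_ble {f g : α → ℕ} (hf : Computable f) (hg : Computable g) :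
    Computable (fun a => Nat.ble (f a) (g a)) := by
  have : Primrec₂ (fun a b : ℕ => decide (a ≤ b)) := Primrec.nat_le.decide
  refine (this.to_comp.comp hf hg).of_eq fun a => ?_
  rw [Bool.eq_iff_iff]; simp
@[fun_prop] theorem c_beq {f g : α → ℕ} (hf : Computable f) (hg : Computable g) :
    Computable (fun a => Nat.beq (f a) (g a)) := by
  have : Primrec₂ (fun a b : ℕ => decide (a = b)) := Primrec.eq.decide
  refine (this.to_comp.comp hf hg).of_eq fun a => ?_
  rw [Bool.eq_iff_iff]; simp
@[fun_prop] theorem c_and {f g : α → Bool} (hf : Computable f) (hg : Computable g) :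
    Computable (fun a => (f a && g a)) := Primrec.and.to_comp.comp hf hg

theorem c_rec {n : α → ℕ} {g : α → σ} {h : α × ℕ × σ → σ} (hn : Computable n) (hg : Computable g)
    (hh : Computable h) :
    Computable (fun a => Nat.rec (motive := fun _ => σ) (g a) (fun y IH => h (a, y, IH)) (n a)) :=
  Computable.nat_rec (h := fun a z => h (a, z)) hn hg hh.to₂

@[fun_prop] theorem c_factorial {f : α → ℕ} (hf : Computable f) :
    Computable (fun a => (f a).factorial) := by
  refine (c_rec (g := fun _ => 1) (h := fun z : α × ℕ × ℕ => (z.2.1 + 1) * z.2.2) hf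
    (by fun_prop) (by fun_prop)).of_eq fun a => ?_
  induction f a with
  | zero => rfl
  | succ k ih => simp only [Nat.factorial_succ]; rw [← ih]

@[fun_prop] theorem c_choose {f g : α → ℕ} (hf : Computable f) (hg : Computable g) :
    Computable (fun a => (f a).choose (g a)) := by
  have : Computable (fun a => cond (Nat.ble (g a) (f a))
      ((f a).factorial / ((g a).factorial * (f a - g a).factorial)) 0) := by fun_prop
  refine this.of_eq fun a => ?_
  by_cases h : g a ≤ f a
  · have : Nat.ble (g a) (f a) = true := by simpa using h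
    rw [this, Nat.choose_eq_factorial_div_factorial h]; rfl
  · have : Nat.ble (g a) (f a) = false := by
      rw [Bool.eq_false_iff]; simpa using h
    rw [this, Nat.choose_eq_zero_of_lt (by omega)]; rfl

end

/-! Arithmetic on names of rationals. -/

def qnat (n : ℕ) : Q := (n, 0, 0)
def qadd (p q : Q) : Q :=
  (p.1 * (q.2.2 + 1) + q.1 * (p.2.2 + 1), p.2.1 * (q.2.2 + 1) + q.2.1 * (p.2.2 + 1),
    p.2.2 * q.2.2 + p.2.2 + q.2.2)
def qneg (p : Q) : Q := (p.2.1, p.1, p.2.2)
def qmul (p q : Q) : Q :=
  (p.1 * q.1 + p.2.1 * q.2.1, p.1 * q.2.1 + p.2.1 * q.1, p.2.2 * q.2.2 + p.2.2 + q.2.2)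
def qabs (p : Q) : Q := ((p.1 - p.2.1) + (p.2.1 - p.1), 0, p.2.2)
/-- decides `qv p ≤ qv q` -/
def qle (p q : Q) : Bool :=
  Nat.ble (p.1 * (q.2.2 + 1) + q.2.1 * (p.2.2 + 1)) (q.1 * (p.2.2 + 1) + p.2.1 * (q.2.2 + 1))
/-- the inverse of a positive rational -/
def qinv (p : Q) : Q := (p.2.2 + 1, 0, p.1 - p.2.1 - 1)
def qfloor (p : Q) : ℕ := (p.1 - p.2.1) / (p.2.2 + 1)
def qfract (p : Q) : Q := ((p.1 + p.2.1 * p.2.2) % (p.2.2 + 1), 0, p.2.2)

@[simp] theorem qv_nat (n : ℕ) : qv (qnat n) = n := by simp [qv, qnat]
@[simp] theorem qv_add (p q : Q) : qv (qadd p q) = qv p + qv q := by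
  simp only [qv, qadd]; push_cast
  have : ((p.2.2 : ℝ) * q.2.2 + p.2.2 + q.2.2 + 1) = (p.2.2 + 1) * (q.2.2 + 1) := by ring
  rw [this]; field_simp; ring
@[simp] theorem qv_neg (p : Q) : qv (qneg p) = -qv p := by
  simp only [qv, qneg]; ring
@[simp] theorem qv_mul (p q : Q) : qv (qmul p q) = qv p * qv q := by
  simp only [qv, qmul]; push_cast
  have : ((p.2.2 : ℝ) * q.2.2 + p.2.2 + q.2.2 + 1) = (p.2.2 + 1) * (q.2.2 + 1) := by ring
  rw [this]; field_simp; ring
@[simp] theorem qv_abs (p : Q) : qv (qabs p) = |qv p| := by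
  simp only [qv, qabs]
  rw [abs_div, abs_of_pos (by positivity : (0 : ℝ) < p.2.2 + 1)]
  congr 1
  rcases le_total p.1 p.2.1 with h | h
  · rw [Nat.sub_eq_zero_of_le h, abs_of_nonpos (by simpa using h)]
    push_cast [Nat.cast_sub h]; ring
  · rw [Nat.sub_eq_zero_of_le h, abs_of_nonneg (by simpa using h)]
    push_cast [Nat.cast_sub h]; ring
theorem qle_iff (p q : Q) : qle p q = true ↔ qv p ≤ qv q := by
  simp only [qle, qv, Nat.ble_eq]
  rw [div_le_div_iff₀ (by positivity) (by positivity), ← Nat.cast_le (α := ℝ)]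
  push_cast
  constructor <;> intro h <;> linarith
theorem qv_inv (p : Q) (h : 0 < qv p) : qv (qinv p) = (qv p)⁻¹ := by
  have h1 : (0 : ℝ) < (p.1 : ℝ) - p.2.1 := by
    have := mul_pos h (by positivity : (0 : ℝ) < p.2.2 + 1)
    simp only [qv] at this
    rwa [div_mul_cancel₀ _ (by positivity)] at this
  have h2 : p.2.1 < p.1 := by exact_mod_cast (sub_pos.1 h1)
  have h3 : ((p.1 - p.2.1 - 1 : ℕ) : ℝ) + 1 = (p.1 : ℝ) - p.2.1 := by
    have : p.1 - p.2.1 - 1 + 1 = p.1 - p.2.1 := by omega
    rw [← Nat.cast_sub h2.le, ← this]; push_cast; simp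
  simp only [qv, qinv, h3]
  push_cast
  field_simp
  ring
theorem qfloor_eq (p : Q) : qfloor p = ⌊qv p⌋.toNat := by
  have : qv p = ((((p.1 : ℤ) - p.2.1 : ℤ) : ℝ)) / ((p.2.2 + 1 : ℕ) : ℝ) := by
    simp [qv]
  rw [this, Int.floor_div_natCast, Int.floor_intCast, qfloor]
  rcases le_total p.2.1 p.1 with h | h
  · rw [← Nat.cast_sub h, ← Int.natCast_div, Int.toNat_natCast]
  · rw [Nat.sub_eq_zero_of_le h, Nat.zero_div]
    symm
    rw [Int.toNat_eq_zero]
    exact Int.ediv_nonpos_of_nonpos_of_neg (by omega) (by omega)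
theorem qv_fract (p : Q) : qv (qfract p) = Int.fract (qv p) := by
  have h1 : qv p = ((p.1 + p.2.1 * p.2.2 : ℕ) : ℝ) / ((p.2.2 + 1 : ℕ) : ℝ) - (p.2.1 : ℕ) := by
    simp only [qv]; push_cast; field_simp; ring
  rw [h1, Int.fract_sub_natCast, Int.fract_div_natCast_eq_div_natCast_mod]
  simp [qv, qfract]

section
variable {α : Type} [Primcodable α]
@[fun_prop] theorem c_qnat {f : α → ℕ} (hf : Computable f) : Computable (fun a => qnat (f a)) := by
  unfold qnat; fun_prop
@[fun_prop] theorem c_qadd {f g : α → Q} (hf : Computable f) (hg : Computable g) :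
    Computable (fun a => qadd (f a) (g a)) := by unfold qadd; fun_prop
@[fun_prop] theorem c_qmul {f g : α → Q} (hf : Computable f) (hg : Computable g) :
    Computable (fun a => qmul (f a) (g a)) := by unfold qmul; fun_prop
@[fun_prop] theorem c_qle {f g : α → Q} (hf : Computable f) (hg : Computable g) :
    Computable (fun a => qle (f a) (g a)) := by unfold qle; fun_prop
@[fun_prop] theorem c_qneg {f : α → Q} (hf : Computable f) : Computable (fun a => qneg (f a)) := by
  unfold qneg; fun_prop
@[fun_prop] theorem c_qabs {f : α → Q} (hf : Computable f) : Computable (fun a => qabs (f a)) := by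
  unfold qabs; fun_prop
@[fun_prop] theorem c_qinv {f : α → Q} (hf : Computable f) : Computable (fun a => qinv (f a)) := by
  unfold qinv; fun_prop
@[fun_prop] theorem c_qfloor {f : α → Q} (hf : Computable f) :
    Computable (fun a => qfloor (f a)) := by unfold qfloor; fun_prop
@[fun_prop] theorem c_qfract {f : α → Q} (hf : Computable f) :
    Computable (fun a => qfract (f a)) := by unfold qfract; fun_prop
end

end Vale.Agent.P113
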