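import Mathlib

/-! Definitions for the statement: Turing machines, effective forces, classical solutions of the
forced Navier-Stokes system on the flat three-torus, particle trajectories. -/

namespace Vale.Agent.P113

open Set MeasureTheory

/-- A deterministic one-tape Turing machine: states `Fin (n+1)` with start state `0`, tape symbols
`Fin (m+1)` with blank `0`, a set of halting states, and a transition function returning the new
state, the written symbol and the head move (`0` left, `1` stay, `2` right). -/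
structure Machine where
  n : ℕ
  m : ℕ
  halting : Fin (n + 1) → Bool
  δ : Fin (n + 1) → Fin (m + 1) → Fin (n + 1) × Fin (m + 1) × Fin 3

/-- A configuration: state, two-sided tape, head position. -/
structure Config (M : Machine) where
  state : Fin (M.n + 1)
  tape : ℤ → Fin (M.m + 1)
  head : ℤ

/-- One step of the machine. -/
def Machine.step (M : Machine) (c : Config M) : Config M where
  state := (M.δ c.state (c.tape c.head)).1
  tape := Function.update c.tape c.head (M.δ c.state (c.tape c.head)).2.1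
  head := c.head + (((M.δ c.state (c.tape c.head)).2.2 : ℕ) : ℤ) - 1

/-- The initial configuration: the word on cells `0, 1, …`, blanks elsewhere, head on cell `0`. -/
def Machine.init (M : Machine) (w : List (Fin (M.m + 1))) : Config M where
  state := 0
  tape := fun i => if 0 ≤ i then w.getD i.toNat 0 else 0
  head := 0

/-- The machine reaches a halting state after finitely many steps, possibly none. -/
def Machine.Halts (M : Machine) (w : List (Fin (M.m + 1))) : Prop :=
  ∃ k : ℕ, M.halting (M.step^[k] (M.init w)).state = true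

/-- Finite descriptions of machines. -/
abbrev Desc : Type := ℕ × ℕ × List Bool × List (List (ℕ × ℕ × ℕ))

/-- The description of a machine: its sizes, the list of halting flags, the transition table. -/
def Machine.desc (M : Machine) : Desc :=
  (M.n, M.m, List.ofFn M.halting,
    List.ofFn fun q => List.ofFn fun a =>
      (((M.δ q a).1 : ℕ), ((M.δ q a).2.1 : ℕ), ((M.δ q a).2.2 : ℕ)))

/-- Names of rational numbers. -/
abbrev Q : Type := ℕ × ℕ × ℕ

/-- The triple `(a, b, c)` names the rational number `(a - b) / (c + 1)`. -/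
noncomputable def qv (q : Q) : ℝ := ((q.1 : ℝ) - (q.2.1 : ℝ)) / ((q.2.2 : ℝ) + 1)

/-- A computable real number. -/
def ComputableReal (ν : ℝ) : Prop :=
  ∃ g : ℕ → Q, Computable g ∧ ∀ n : ℕ, |qv (g n) - ν| ≤ 1 / ((n : ℝ) + 1)

/-- Points of the universal cover of the torus. -/
abbrev Pt : Type := Fin 3 → ℝ

/-- The projection to the flat torus. -/
def proj (x : Pt) : Fin 3 → UnitAddCircle := fun i => ((x i : ℝ) : UnitAddCircle)

/-- A function on the cover that descends to the torus. -/
def Per (g : Pt → ℝ) : Prop := ∀ (x : Pt) (k : Fin 3 → ℤ), g (fun i => x i + (k i : ℝ)) = g x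

/-- The derivative in the `i`-th space direction. -/
noncomputable def dx (i : Fin 3) (g : Pt → ℝ) (x : Pt) : ℝ :=
  deriv (fun s => g (Function.update x i s)) (x i)

/-- The derivative in the `i`-th space direction exists everywhere. -/
def DiffX (i : Fin 3) (g : Pt → ℝ) : Prop :=
  ∀ x : Pt, DifferentiableAt ℝ (fun s => g (Function.update x i s)) (x i)

/-- The time derivative of a function of time and space. -/
noncomputable def Dt (F : ℝ → Pt → ℝ) : ℝ → Pt → ℝ := fun t x => deriv (fun s => F s x) t

/-- The `i`-th space derivative of a function of time and space. -/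
noncomputable def Dx (i : Fin 3) (F : ℝ → Pt → ℝ) : ℝ → Pt → ℝ := fun t => dx i (F t)

/-- The mixed derivative of multi-index `(a₀, a₁, a₂, a₃)`, time first. -/
noncomputable def mixed (a : ℕ × ℕ × ℕ × ℕ) (F : ℝ → Pt → ℝ) : ℝ → Pt → ℝ :=
  Dt^[a.1] ((Dx 0)^[a.2.1] ((Dx 1)^[a.2.2.1] ((Dx 2)^[a.2.2.2] F)))

/-- A smooth time-dependent vector field on the torus. -/
def SmoothField (f : ℝ → Pt → Pt) : Prop :=
  ContDiff ℝ (⊤ : ℕ∞) (fun z : ℝ × Pt => f z.1 z.2) ∧ ∀ t k, Per fun x => f t x k

/-- The program `c` returns every mixed derivative of every component of `f`, at every rational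
point with nonnegative time, to every positive rational accuracy. -/
def Effective (c : Nat.Partrec.Code) (f : ℝ → Pt → Pt) : Prop :=
  ∀ (a : ℕ × ℕ × ℕ × ℕ) (k : Fin 3) (t : Q) (x : Q × Q × Q) (ε : Q), 0 ≤ qv t → 0 < qv ε →
    ∃ r : Q, Encodable.encode r ∈ c.eval (Encodable.encode (a, (k : ℕ), t, x, ε)) ∧
      |qv r - mixed a (fun s y => f s y k) (qv t) ![qv x.1, qv x.2.1, qv x.2.2]| ≤ qv ε

/-- Joint continuity on `[0, T] × ℝ³`. -/
def Cont (T : ℝ) (F : ℝ → Pt → ℝ) : Prop :=
  ContinuousOn (fun z : ℝ × Pt => F z.1 z.2) (Icc 0 T ×ˢ univ)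

/-- A classical solution on `[0, T]` of the forced Navier-Stokes system from rest. -/
structure IsClassical (ν : ℝ) (f : ℝ → Pt → Pt) (T : ℝ) (u : ℝ → Pt → Pt) (p : ℝ → Pt → ℝ) :
    Prop where
  per_u : ∀ t ∈ Icc 0 T, ∀ k, Per fun x => u t x k
  per_p : ∀ t ∈ Icc 0 T, Per (p t)
  diff_t : ∀ t ∈ Icc 0 T, ∀ x k, DifferentiableWithinAt ℝ (fun s => u s x k) (Icc 0 T) t
  diff_x : ∀ t ∈ Icc 0 T, ∀ k i, DiffX i fun x => u t x k
  diff_xx : ∀ t ∈ Icc 0 T, ∀ k i j, DiffX j (dx i fun x => u t x k)
  diff_p : ∀ t ∈ Icc 0 T, ∀ i, DiffX i (p t)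
  cont_u : ∀ k, Cont T fun t x => u t x k
  cont_ut : ∀ k, Cont T fun t x => derivWithin (fun s => u s x k) (Icc 0 T) t
  cont_ux : ∀ k i, Cont T fun t => dx i fun x => u t x k
  cont_uxx : ∀ k i j, Cont T fun t => dx j (dx i fun x => u t x k)
  cont_p : Cont T p
  cont_px : ∀ i, Cont T fun t => dx i (p t)
  mean_p : ∀ t ∈ Icc 0 T, ∫ x in Icc (0 : Pt) 1, p t x = 0
  momentum : ∀ t ∈ Icc 0 T, ∀ x k,
    derivWithin (fun s => u s x k) (Icc 0 T) t + ∑ j, u t x j * dx j (fun y => u t y k) x
      = -dx k (p t) x + ν * ∑ j, dx j (dx j fun y => u t y k) x + f t x k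
  div_free : ∀ t ∈ Icc 0 T, ∀ x, ∑ j, dx j (fun y => u t y j) x = 0
  rest : ∀ x, u 0 x = 0

/-- `X` is the (lifted) particle trajectory of the velocity field `u` starting at `a`. -/
def IsTraj (u : ℝ → Pt → Pt) (a : Pt) (X : ℝ → Pt) : Prop :=
  X 0 = a ∧ ∀ t : ℝ, 0 ≤ t → HasDerivWithinAt X (u t (X t)) (Ici 0) t

end Vale.Agent.P113
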