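import Vale.Agent.P113.Sigma

/-! Effectively smooth families of functions of one real variable. -/

namespace Vale.Agent.P113

open Filter Topology Real Set

/-- a family of smooth functions whose derivatives are uniformly computable at rational points -/
def ES {α : Type} [Primcodable α] (p : α → ℝ → ℝ) : Prop :=
  (∀ a, ContDiff ℝ (⊤ : ℕ∞) (p a)) ∧
    CR (fun z : α × ℕ × Q => iteratedDeriv z.2.1 (p z.1) (qv z.2.2))

variable {α β : Type} [Primcodable α] [Primcodable β]

theorem ctd {p : ℝ → ℝ} (h : ContDiff ℝ (⊤ : ℕ∞) p) (n : ℕ) : ContDiff ℝ n p :=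
  h.of_le (by exact_mod_cast le_top)

theorem ES.of_eq {p q : α → ℝ → ℝ} (h : ES p) (H : ∀ a s, p a s = q a s) : ES q :=
  (funext fun a => funext (H a) : p = q) ▸ h

theorem ES.comp {p : β → ℝ → ℝ} {f : α → β} (h : ES p) (hf : Computable f) :
    ES (fun a => p (f a)) :=
  ⟨fun a => h.1 (f a), h.2.comp (f := fun z : α × ℕ × Q => (f z.1, z.2)) (by fun_prop)⟩

theorem ES.st : ES (fun _ : α => smoothTransition) :=
  ⟨fun _ => smoothTransition.contDiff, cr_st.comp (f := fun z : α × ℕ × Q => z.2) (by fun_prop)⟩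

theorem ES.affine {p : α → ℝ → ℝ} {A B : α → Q} (h : ES p) (hA : Computable A)
    (hB : Computable B) : ES (fun a s => p a (qv (A a) * s + qv (B a))) := by
  refine ⟨fun a => (h.1 a).comp (by fun_prop), ?_⟩
  have h1 := h.2.comp (f := fun z : α × ℕ × Q =>
    (z.1, z.2.1, qadd (qmul (A z.1) z.2.2) (B z.1))) (by fun_prop)
  have h2 : CR (fun z : α × ℕ × Q => qv (A z.1) ^ z.2.1) := by fun_prop
  refine (h2.mul h1).of_eq fun z => ?_
  have h3 : ContDiff ℝ z.2.1 (fun s => p z.1 (s + qv (B z.1))) :=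
    (ctd (h.1 z.1) _).comp (by fun_prop)
  have h4 := congrFun (iteratedDeriv_comp_const_mul h3 (qv (A z.1))) (qv z.2.2)
  rw [iteratedDeriv_comp_add_const] at h4
  simp only [qv_add, qv_mul]
  exact h4.symm

theorem ES.sub {p q : α → ℝ → ℝ} (h : ES p) (h' : ES q) : ES (fun a s => p a s - q a s) := by
  refine ⟨fun a => (h.1 a).sub (h'.1 a), (h.2.sub h'.2).of_eq fun z => ?_⟩
  exact (iteratedDeriv_sub (ctd (h.1 z.1) _).contDiffAt (ctd (h'.1 z.1) _).contDiffAt).symm

theorem ES.mul {p q : α → ℝ → ℝ} (h : ES p) (h' : ES q) : ES (fun a s => p a s * q a s) := by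
  refine ⟨fun a => (h.1 a).mul (h'.1 a), ?_⟩
  have h1 := h.2.comp (f := fun w : (α × ℕ × Q) × ℕ => (w.1.1, w.2, w.1.2.2)) (by fun_prop)
  have h2 := h'.2.comp (f := fun w : (α × ℕ × Q) × ℕ => (w.1.1, w.1.2.1 - w.2, w.1.2.2))
    (by fun_prop)
  have h3 : CR (fun w : (α × ℕ × Q) × ℕ => ((w.1.2.1.choose w.2 : ℕ) : ℝ)) := by fun_prop
  refine (CR.sum (n := fun z : α × ℕ × Q => z.2.1 + 1) ((h3.mul h1).mul h2)
    (by fun_prop)).of_eq fun z => ?_
  exact (iteratedDeriv_mul (n := z.2.1) (x := qv z.2.2) (ctd (h.1 z.1) _).contDiffAt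
    (ctd (h'.1 z.1) _).contDiffAt).symm

theorem ES.one : ES (fun (_ : α) (_ : ℝ) => (1 : ℝ)) := by
  refine ⟨fun _ => contDiff_const, (CR.cond (b := fun z : α × ℕ × Q => Nat.beq z.2.1 0)
    (by fun_prop) CR.one CR.zero).of_eq fun z => ?_⟩
  rw [iteratedDeriv_const]
  rcases z with ⟨a, _ | d, q⟩ <;> simp [Nat.beq]

theorem ES.id : ES (fun (_ : α) (s : ℝ) => s) := by
  have h0 : CR (fun z : α × ℕ × Q => qv z.2.2) := by fun_prop
  refine ⟨fun _ => contDiff_id, (CR.cond (b := fun z : α × ℕ × Q => Nat.beq z.2.1 0)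
    (by fun_prop) h0 (CR.cond (b := fun z : α × ℕ × Q => Nat.beq z.2.1 1)
    (by fun_prop) CR.one CR.zero)).of_eq fun z => ?_⟩
  rw [iteratedDeriv_fun_id]
  rcases z with ⟨a, _ | _ | d, q⟩ <;> simp [Nat.beq]

theorem ES.cond {b : α → Bool} {p q : α → ℝ → ℝ} (hb : Computable b) (h : ES p) (h' : ES q) :
    ES (fun a s => cond (b a) (p a s) (q a s)) := by
  refine ⟨fun a => ?_, (CR.cond (b := fun z : α × ℕ × Q => b z.1) (by fun_prop)
    h.2 h'.2).of_eq fun z => ?_⟩
  · dsimp only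
    cases b a
    · exact h'.1 a
    · exact h.1 a
  · dsimp only
    cases b z.1 <;> rfl

theorem ES.deriv {p : α → ℝ → ℝ} (h : ES p) : ES (fun a => deriv (p a)) := by
  refine ⟨fun a => (contDiff_infty_iff_deriv.1 (h.1 a)).2, (h.2.comp
    (f := fun z : α × ℕ × Q => (z.1, z.2.1 + 1, z.2.2)) (by fun_prop)).of_eq fun z => ?_⟩
  simp only [iteratedDeriv_succ']

/-- functions vanishing near the ends of the unit interval -/
def Supp (p : ℝ → ℝ) : Prop := ∀ s, s ≤ 1 / 8 ∨ 7 / 8 ≤ s → p s = 0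

/-- copies of `p` on the selected unit intervals -/
noncomputable def patch (c : ℕ → Bool) (p : ℝ → ℝ) (s : ℝ) : ℝ :=
  cond (c ⌊s⌋.toNat) (p (Int.fract s)) 0

theorem patch_local (c : ℕ → Bool) {p : ℝ → ℝ} (hp : Supp p) (s₀ : ℝ) :
    patch c p =ᶠ[𝓝 s₀] fun s => cond (c ⌊s₀⌋.toNat) (p (s - (⌊s₀⌋ : ℝ))) 0 := by
  have h1 := Int.floor_le s₀
  have h2 := Int.lt_floor_add_one s₀
  filter_upwards [Ioo_mem_nhds (show (⌊s₀⌋ : ℝ) - 1 / 8 < s₀ by linarith) h2] with s hs
  by_cases h : (⌊s₀⌋ : ℝ) ≤ s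
  · have : ⌊s⌋ = ⌊s₀⌋ := Int.floor_eq_iff.2 ⟨h, hs.2⟩
    simp only [patch, Int.fract, this]
  · push Not at h
    have h3 : ⌊s⌋ = ⌊s₀⌋ - 1 := Int.floor_eq_iff.2 ⟨by push_cast; linarith [hs.1], by
      push_cast; linarith⟩
    have h4 : p (Int.fract s) = 0 := hp _ (Or.inr (by
      rw [Int.fract, h3]; push_cast; linarith [hs.1]))
    have h5 : p (s - (⌊s₀⌋ : ℝ)) = 0 := hp _ (Or.inl (by linarith))
    simp only [patch, h4, h5, Bool.cond_self]

theorem patch_contDiff (c : ℕ → Bool) {p : ℝ → ℝ} (hp : Supp p) (h : ContDiff ℝ (⊤ : ℕ∞) p) :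
    ContDiff ℝ (⊤ : ℕ∞) (patch c p) := by
  rw [contDiff_iff_contDiffAt]
  intro s₀
  refine ContDiffAt.congr_of_eventuallyEq ?_ (patch_local c hp s₀)
  cases c ⌊s₀⌋.toNat
  · exact contDiffAt_const
  · exact (h.comp (contDiff_id.sub contDiff_const)).contDiffAt

theorem iteratedDeriv_patch (c : ℕ → Bool) {p : ℝ → ℝ} (hp : Supp p) (d : ℕ) :
    iteratedDeriv d (patch c p) = patch c (iteratedDeriv d p) := by
  funext s₀
  rw [(patch_local c hp s₀).iteratedDeriv_eq d, patch]
  cases c ⌊s₀⌋.toNat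
  · simp
  · simp only [cond_true]
    rw [iteratedDeriv_comp_sub_const]; rfl

theorem deriv_patch (c : ℕ → Bool) {p : ℝ → ℝ} (hp : Supp p) :
    deriv (patch c p) = patch c (deriv p) := by
  simpa using iteratedDeriv_patch c hp 1

theorem ES.patch {c : α × ℕ → Bool} {p : α → ℝ → ℝ} (hc : Computable c) (h : ES p)
    (hp : ∀ a, Supp (p a)) : ES (fun a => patch (fun n => c (a, n)) (p a)) := by
  refine ⟨fun a => patch_contDiff _ (hp a) (h.1 a), ?_⟩
  have h1 := h.2.comp (f := fun z : α × ℕ × Q => (z.1, z.2.1, qfract z.2.2)) (by fun_prop)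
  refine (CR.cond (b := fun z : α × ℕ × Q => c (z.1, qfloor z.2.2)) (by fun_prop) h1
    CR.zero).of_eq fun z => ?_
  rw [iteratedDeriv_patch _ (hp z.1), P113.patch, qfloor_eq, qv_fract]

/-- the plateau function: one on `[0, 1/2]`, zero outside `(-1/8, 5/8)` -/
noncomputable def phi (v : ℝ) : ℝ := smoothTransition (8 * v + 1) - smoothTransition (8 * v - 4)

theorem phi_one {v : ℝ} (h0 : 0 ≤ v) (h1 : v ≤ 1 / 2) : phi v = 1 := by
  rw [phi, smoothTransition.one_of_one_le (by linarith),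
    smoothTransition.zero_of_nonpos (by linarith), sub_zero]

theorem phi_zero {v : ℝ} (h : v ≤ -1 / 8 ∨ 5 / 8 ≤ v) : phi v = 0 := by
  rcases h with h | h
  · rw [phi, smoothTransition.zero_of_nonpos (by linarith),
      smoothTransition.zero_of_nonpos (by linarith), sub_zero]
  · rw [phi, smoothTransition.one_of_one_le (by linarith),
      smoothTransition.one_of_one_le (by linarith), sub_self]

theorem ES.phi : ES (fun _ : α => phi) := by
  refine ((ES.st.affine (A := fun _ => qnat 8) (B := fun _ => qnat 1) (by fun_prop)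
    (by fun_prop)).sub (ES.st.affine (A := fun _ => qnat 8) (B := fun _ => qneg (qnat 4))
    (by fun_prop) (by fun_prop))).of_eq fun a s => ?_
  simp [P113.phi, sub_eq_add_neg]

/-- the basic spatial profile, in terms of the position `r = 1/4 + v` -/
noncomputable def bas (K j : ℕ) (e : Bool) (r : ℝ) : ℝ :=
  cond e (r - 1 / 4) 1 * (phi (r - 1 / 4) * phi (K * (r - 1 / 4) - j))

theorem supp_bas (K j : ℕ) (e : Bool) : Supp (bas K j e) := by
  intro s hs
  rw [bas, phi_zero (v := s - 1 / 4) (hs.imp (fun h => by linarith) fun h => by linarith)]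
  simp

theorem es_bas : ES (fun z : ℕ × ℕ × Bool => bas z.1 z.2.1 z.2.2) := by
  have q4 : qv (0, 1, 3) = -(1 / 4) := by simp [qv]; norm_num
  have h1 : ES (fun (_ : ℕ × ℕ × Bool) (r : ℝ) => r - 1 / 4) :=
    (ES.id.affine (A := fun _ => qnat 1) (B := fun _ => (0, 1, 3)) (by fun_prop)
      (by fun_prop)).of_eq fun a s => by simp only [q4, qv_nat]; ring
  have h2 : ES (fun (_ : ℕ × ℕ × Bool) (r : ℝ) => phi (r - 1 / 4)) :=
    (ES.phi.affine (A := fun _ => qnat 1) (B := fun _ => (0, 1, 3)) (by fun_prop)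
      (by fun_prop)).of_eq fun a s => by simp only [q4, qv_nat]; congr 1; ring
  have h3 : ES (fun (z : ℕ × ℕ × Bool) (r : ℝ) => phi (z.1 * (r - 1 / 4) - z.2.1)) :=
    (ES.phi.affine (A := fun z => qnat z.1)
      (B := fun z => qadd (qmul (qnat z.1) (0, 1, 3)) (qneg (qnat z.2.1))) (by fun_prop)
      (by fun_prop)).of_eq fun a s => by
        simp only [q4, qv_nat, qv_add, qv_mul, qv_neg]; congr 1; ring
  exact (ES.cond (b := fun z : ℕ × ℕ × Bool => z.2.2) (by fun_prop) h1 ES.one).mul (h2.mul h3)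

/-- the periodic spatial profile -/
noncomputable def pbas (K j : ℕ) (e : Bool) : ℝ → ℝ := patch (fun _ => true) (bas K j e)

theorem es_pbas : ES (fun z : ℕ × ℕ × Bool => pbas z.1 z.2.1 z.2.2) :=
  ES.patch (c := fun _ => true) (by fun_prop) es_bas fun _ => supp_bas _ _ _

theorem pbas_per (K j : ℕ) (e : Bool) (s : ℝ) (k : ℤ) : pbas K j e (s + k) = pbas K j e s := by
  simp [pbas, patch]

/-- selection of the leading digits -/
theorem pbas_sel {K j j₀ : ℕ} (e : Bool) {v : ℝ} (h0 : 0 ≤ v) (h1 : v ≤ 1 / 2)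
    (h2 : (j₀ : ℝ) ≤ K * v) (h3 : K * v ≤ j₀ + 1 / 2) :
    pbas K j e (1 / 4 + v) = if j = j₀ then cond e v 1 else 0 := by
  have hf : Int.fract (1 / 4 + v) = 1 / 4 + v :=
    Int.fract_eq_self.2 ⟨by linarith, by linarith⟩
  have e1 : (1 / 4 + v - 1 / 4 : ℝ) = v := by ring
  simp only [pbas, patch, cond_true, hf, bas, e1, phi_one h0 h1, one_mul]
  split_ifs with h
  · subst h; rw [phi_one (by linarith) (by linarith), mul_one]
  · rw [phi_zero, mul_zero]
    rcases Nat.lt_or_gt_of_ne h with h | h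
    · right
      have : (j : ℝ) + 1 ≤ j₀ := by exact_mod_cast h
      linarith
    · left
      have : (j₀ : ℝ) + 1 ≤ j := by exact_mod_cast h
      linarith

/-- the time profile and its primitive -/
noncomputable def Theta (r : ℝ) : ℝ := smoothTransition (2 * r - 1 / 2)
noncomputable def theta : ℝ → ℝ := deriv Theta

theorem Theta_zero {r : ℝ} (h : r ≤ 1 / 4) : Theta r = 0 :=
  smoothTransition.zero_of_nonpos (by linarith)
theorem Theta_one {r : ℝ} (h : 3 / 4 ≤ r) : Theta r = 1 :=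
  smoothTransition.one_of_one_le (by linarith)
theorem Theta_mem (r : ℝ) : 0 ≤ Theta r ∧ Theta r ≤ 1 :=
  ⟨smoothTransition.nonneg _, smoothTransition.le_one _⟩

theorem es_Theta : ES (fun _ : α => Theta) := by
  have q2 : qv (0, 1, 1) = -(1 / 2) := by simp [qv]; norm_num
  exact (ES.st.affine (A := fun _ => qnat 2) (B := fun _ => (0, 1, 1)) (by fun_prop)
      (by fun_prop)).of_eq fun a s => by simp only [q2, qv_nat, Theta]; congr 1

theorem es_theta : ES (fun _ : α => theta) := es_Theta.deriv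

theorem hasDerivAt_Theta (r : ℝ) : HasDerivAt Theta (theta r) r :=
  (((es_Theta (α := ℕ)).1 0).differentiable (by simp) r).hasDerivAt

theorem supp_theta : Supp theta := by
  intro s hs
  rcases hs with h | h
  · have : Theta =ᶠ[𝓝 s] fun _ => 0 := by
      filter_upwards [Iio_mem_nhds (show s < 1 / 4 by linarith)] with r hr using Theta_zero hr.le
    rw [theta, this.deriv_eq, deriv_const]
  · have : Theta =ᶠ[𝓝 s] fun _ => 1 := by
      filter_upwards [Ioi_mem_nhds (show 3 / 4 < s by linarith)] with r hr using Theta_one hr.le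
    rw [theta, this.deriv_eq, deriv_const]

end Vale.Agent.P113
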