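import Vale.Agent.P113.Defs

/-! Uniqueness of classical solutions by the energy method. -/

namespace Vale.Agent.P113

open Filter Topology Set MeasureTheory

/-- `D` is the derivative of `g` in direction `i`, everywhere -/
def HD (i : Fin 3) (g D : Pt → ℝ) : Prop :=
  ∀ x : Pt, HasDerivAt (fun s => g (Function.update x i s)) (D x) (x i)

theorem DiffX.hd {i : Fin 3} {g : Pt → ℝ} (h : DiffX i g) : HD i g (dx i g) :=
  fun x => (h x).hasDerivAt

theorem HD.mul {i : Fin 3} {g D g' D' : Pt → ℝ} (h : HD i g D) (h' : HD i g' D') :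
    HD i (fun x => g x * g' x) (fun x => D x * g' x + g x * D' x) := fun x => by
  simpa using (h x).fun_mul (h' x)

theorem HD.sub {i : Fin 3} {g D g' D' : Pt → ℝ} (h : HD i g D) (h' : HD i g' D') :
    HD i (fun x => g x - g' x) (fun x => D x - D' x) := fun x => (h x).fun_sub (h' x)

theorem HD.add {i : Fin 3} {g D g' D' : Pt → ℝ} (h : HD i g D) (h' : HD i g' D') :
    HD i (fun x => g x + g' x) (fun x => D x + D' x) := fun x => (h x).fun_add (h' x)

theorem HD.const_mul {i : Fin 3} {g D : Pt → ℝ} (c : ℝ) (h : HD i g D) :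
    HD i (fun x => c * g x) (fun x => c * D x) := fun x => (h x).const_mul c

theorem HD.sum {i : Fin 3} {g D : Fin 3 → Pt → ℝ} (h : ∀ k, HD i (g k) (D k)) :
    HD i (fun x => ∑ k, g k x) (fun x => ∑ k, D k x) := fun x =>
  HasDerivAt.fun_sum fun k _ => h k x

theorem Per.dx {g : Pt → ℝ} (h : Per g) (i : Fin 3) : Per (dx i g) := by
  intro x k
  have : ∀ s, g (Function.update (fun j => x j + (k j : ℝ)) i s)
      = g (Function.update x i (s - k i)) := by
    intro s
    rw [← h (Function.update x i (s - k i)) k]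
    congr 1
    funext j
    by_cases hj : j = i
    · subst hj; simp
    · simp [Function.update_of_ne hj]
  simp only [P113.dx, this]
  rw [deriv_comp_sub_const (f := fun s => g (Function.update x i s))]
  simp

/-- the integral over the cube of a derivative of a periodic function vanishes -/
theorem integral_deriv_zero {i : Fin 3} {g D : Pt → ℝ} (hp : Per g) (h : HD i g D)
    (hD : Continuous D) : ∫ x in Icc (0 : Pt) 1, D x = 0 := by
  have hm := (volume_preserving_piFinSuccAbove (fun _ : Fin 3 => ℝ) i).symm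
  rw [← hm.setIntegral_preimage_emb (MeasurableEquiv.measurableEmbedding _)]
  have hs : (MeasurableEquiv.piFinSuccAbove (fun _ : Fin 3 => ℝ) i).symm ⁻¹' Icc (0 : Pt) 1
      = Icc (0 : ℝ) 1 ×ˢ Icc (0 : Fin 2 → ℝ) 1 := by
    ext ⟨s, y⟩
    exact Fin.insertNth_mem_Icc
  have hc : Continuous fun z : ℝ × (Fin 2 → ℝ) => D (i.insertNth z.1 z.2) :=
    hD.comp (Continuous.finInsertNth (A := fun _ : Fin 3 => ℝ) i continuous_fst continuous_snd)
  have hi : IntegrableOn (fun z : ℝ × (Fin 2 → ℝ) => D (i.insertNth z.1 z.2))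
      (Icc (0 : ℝ) 1 ×ˢ Icc (0 : Fin 2 → ℝ) 1) volume :=
    hc.continuousOn.integrableOn_compact (isCompact_Icc.prod isCompact_Icc)
  rw [hs]
  change ∫ z in Icc (0 : ℝ) 1 ×ˢ Icc (0 : Fin 2 → ℝ) 1, D (i.insertNth z.1 z.2) = 0
  rw [IntegrableOn, Measure.volume_eq_prod, ← Measure.prod_restrict] at hi
  rw [Measure.volume_eq_prod, ← Measure.prod_restrict, integral_prod_symm _ hi]
  have : ∀ y : Fin 2 → ℝ, ∫ s in Icc (0 : ℝ) 1, D (i.insertNth s y) = 0 := by
    intro y
    rw [integral_Icc_eq_integral_Ioc, ← intervalIntegral.integral_of_le zero_le_one,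
      intervalIntegral.integral_eq_sub_of_hasDerivAt
        (f := fun s => g (i.insertNth (α := fun _ => ℝ) s y))]
    · have := hp (i.insertNth (α := fun _ => ℝ) 0 y) (Pi.single i 1)
      rw [← this, sub_eq_zero]
      congr 1
      rw [Fin.insertNth_eq_iff]
      constructor
      · simp
      · funext j
        simp [Fin.removeNth, Pi.single_eq_of_ne (Fin.succAbove_ne i j)]
    · intro s _
      have := h (i.insertNth (α := fun _ => ℝ) s y)
      simpa [Fin.update_insertNth] using this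
    · exact (hc.comp (continuous_id.prodMk continuous_const)).intervalIntegrable _ _
  simp [this]

theorem Cont.at {T : ℝ} {F : ℝ → Pt → ℝ} (h : Cont T F) {t : ℝ} (ht : t ∈ Icc 0 T) :
    Continuous (F t) := by
  rw [← continuousOn_univ]
  exact ContinuousOn.comp h (f := fun x : Pt => (t, x)) (by fun_prop) fun x _ => ⟨ht, trivial⟩

theorem Cont.bound {T : ℝ} {F : ℝ → Pt → ℝ} (h : Cont T F) :
    ∃ L, ∀ t ∈ Icc 0 T, ∀ x ∈ Icc (0 : Pt) 1, |F t x| ≤ L := by
  obtain ⟨L, hL⟩ := (isCompact_Icc.prod isCompact_Icc :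
    IsCompact (Icc (0 : ℝ) T ×ˢ Icc (0 : Pt) 1)).exists_bound_of_continuousOn
    (h.mono (prod_mono_right (subset_univ _)))
  exact ⟨L, fun t ht x hx => hL (t, x) ⟨ht, hx⟩⟩

theorem quad_bound {x y a L : ℝ} (h : |a| ≤ L) : -(2 * x * y * a) ≤ L * (x ^ 2 + y ^ 2) := by
  rw [abs_le] at h
  nlinarith [mul_nonneg (sub_nonneg.2 h.2) (sq_nonneg (x - y)),
    mul_nonneg (by linarith [h.1] : 0 ≤ L + a) (sq_nonneg (x + y))]

variable {ν T : ℝ} {f u v : ℝ → Pt → Pt} {p q : ℝ → Pt → ℝ}

/-- the energy inequality at a fixed time -/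
theorem energy_step (hν : 0 ≤ ν) (hu : IsClassical ν f T u p) (hv : IsClassical ν f T v q)
    {L : ℝ} {t : ℝ} (ht : t ∈ Icc 0 T)
    (hL : ∀ k i, ∀ x ∈ Icc (0 : Pt) 1, |dx i (fun y => u t y k) x| ≤ L) :
    ∫ x in Icc (0 : Pt) 1, ∑ k, 2 * (v t x k - u t x k) *
      (derivWithin (fun s => v s x k) (Icc 0 T) t - derivWithin (fun s => u s x k) (Icc 0 T) t)
      ≤ 6 * L * ∫ x in Icc (0 : Pt) 1, ∑ k, (v t x k - u t x k) ^ 2 := by
  obtain ⟨w, hw⟩ : ∃ w : Fin 3 → Pt → ℝ, ∀ k x, w k x = v t x k - u t x k := ⟨_, fun _ _ => rfl⟩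
  obtain ⟨w1, hw1⟩ : ∃ w1 : Fin 3 → Fin 3 → Pt → ℝ, ∀ i k x,
    w1 i k x = dx i (fun y => v t y k) x - dx i (fun y => u t y k) x := ⟨_, fun _ _ _ => rfl⟩
  obtain ⟨w2, hw2⟩ : ∃ w2 : Fin 3 → Fin 3 → Pt → ℝ, ∀ i k x,
    w2 i k x = dx i (dx i fun y => v t y k) x - dx i (dx i fun y => u t y k) x :=
    ⟨_, fun _ _ _ => rfl⟩
  obtain ⟨π, hπ⟩ : ∃ π : Pt → ℝ, ∀ x, π x = q t x - p t x := ⟨_, fun _ => rfl⟩
  obtain ⟨π1, hπ1⟩ : ∃ π1 : Fin 3 → Pt → ℝ, ∀ i x, π1 i x = dx i (q t) x - dx i (p t) x :=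
    ⟨_, fun _ _ => rfl⟩
  have ew : ∀ k, w k = fun x => v t x k - u t x k := fun k => funext (hw k)
  have ew1 : ∀ i k, w1 i k = fun x => dx i (fun y => v t y k) x - dx i (fun y => u t y k) x :=
    fun i k => funext (hw1 i k)
  have ew2 : ∀ i k, w2 i k = fun x =>
      dx i (dx i fun y => v t y k) x - dx i (dx i fun y => u t y k) x :=
    fun i k => funext (hw2 i k)
  have eπ : π = fun x => q t x - p t x := funext hπ
  have eπ1 : ∀ i, π1 i = fun x => dx i (q t) x - dx i (p t) x := fun i => funext (hπ1 i)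
  have dw : ∀ i k, HD i (w k) (w1 i k) := fun i k => by
    rw [ew, ew1]; exact (hv.diff_x t ht k i).hd.sub (hu.diff_x t ht k i).hd
  have dw1 : ∀ i k, HD i (w1 i k) (w2 i k) := fun i k => by
    rw [ew1, ew2]; exact (hv.diff_xx t ht k i i).hd.sub (hu.diff_xx t ht k i i).hd
  have dπ : ∀ i, HD i π (π1 i) := fun i => by
    rw [eπ, eπ1]; exact (hv.diff_p t ht i).hd.sub (hu.diff_p t ht i).hd
  have dv : ∀ i, HD i (fun x => v t x i) (dx i fun y => v t y i) := fun i =>
    (hv.diff_x t ht i i).hd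
  have cw : ∀ k, Continuous (w k) := fun k => by
    rw [ew]; exact ((hv.cont_u k).at ht).sub ((hu.cont_u k).at ht)
  have cw1 : ∀ i k, Continuous (w1 i k) := fun i k => by
    rw [ew1]; exact ((hv.cont_ux k i).at ht).sub ((hu.cont_ux k i).at ht)
  have cw2 : ∀ i k, Continuous (w2 i k) := fun i k => by
    rw [ew2]; exact ((hv.cont_uxx k i i).at ht).sub ((hu.cont_uxx k i i).at ht)
  have cπ : Continuous π := by rw [eπ]; exact (hv.cont_p.at ht).sub (hu.cont_p.at ht)
  have cπ1 : ∀ i, Continuous (π1 i) := fun i => by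
    rw [eπ1]; exact ((hv.cont_px i).at ht).sub ((hu.cont_px i).at ht)
  have cv : ∀ i, Continuous fun x => v t x i := fun i => (hv.cont_u i).at ht
  have cv1 : ∀ i, Continuous (dx i fun y => v t y i) := fun i => (hv.cont_ux i i).at ht
  have pw : ∀ k, Per (w k) := fun k x m => by
    rw [hw, hw]
    exact congrArg₂ (· - ·) (hv.per_u t ht k x m) (hu.per_u t ht k x m)
  have pw1 : ∀ i k, Per (w1 i k) := fun i k x m => by
    rw [hw1, hw1, (hv.per_u t ht k).dx i x m, (hu.per_u t ht k).dx i x m]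
  have pπ : Per π := fun x m => by rw [hπ, hπ, hv.per_p t ht x m, hu.per_p t ht x m]
  obtain ⟨D, hD⟩ : ∃ D : Fin 3 → Pt → ℝ, ∀ i, D i = fun x =>
      (-2) * (w1 i i x * π x + w i x * π1 i x)
      + (2 * ν) * ∑ k, (w1 i k x * w1 i k x + w k x * w2 i k x)
      - ((dx i fun y => v t y i) x * ∑ k, w k x * w k x
        + v t x i * ∑ k, (w1 i k x * w k x + w k x * w1 i k x)) := ⟨_, fun _ => rfl⟩
  have cD : ∀ i, Continuous (D i) := fun i => by
    rw [hD]
    have := cv i
    have := cv1 i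
    fun_prop
  have iD : ∀ i, ∫ x in Icc (0 : Pt) 1, D i x = 0 := fun i => by
    refine integral_deriv_zero (i := i) (g := fun x => (-2) * (w i x * π x)
      + (2 * ν) * ∑ k, w k x * w1 i k x - v t x i * ∑ k, w k x * w k x) ?_ ?_ (cD i)
    · intro x m
      have e : v t (fun j => x j + (m j : ℝ)) i = v t x i := hv.per_u t ht i x m
      simp only [pw _ x m, pw1 _ _ x m, pπ x m, e]
    · rw [hD]
      exact ((((dw i i).mul (dπ i)).const_mul _).add
        ((HD.sum fun k => (dw i k).mul (dw1 i k)).const_mul _)).sub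
        ((dv i).mul (HD.sum fun k => (dw i k).mul (dw i k)))
  have cE : Continuous fun x => ∑ k, (v t x k - u t x k) ^ 2 := by
    simp only [← hw]; fun_prop
  have cG : Continuous fun x => ∑ k, 2 * (v t x k - u t x k) *
      (derivWithin (fun s => v s x k) (Icc 0 T) t - derivWithin (fun s => u s x k) (Icc 0 T) t) := by
    simp only [← hw]
    exact continuous_finsetSum _ fun k _ => (continuous_const.mul (cw k)).mul
      (((hv.cont_ut k).at ht).sub ((hu.cont_ut k).at ht))
  have hI : ∀ {g : Pt → ℝ}, Continuous g → IntegrableOn g (Icc (0 : Pt) 1) volume :=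
    fun hg => hg.continuousOn.integrableOn_compact isCompact_Icc
  have : 6 * L * ∫ x in Icc (0 : Pt) 1, ∑ k, (v t x k - u t x k) ^ 2
      = ∫ x in Icc (0 : Pt) 1, (D 0 x + D 1 x + D 2 x + 6 * L * ∑ k, (v t x k - u t x k) ^ 2) := by
    rw [integral_add (hI (((cD 0).fun_add (cD 1)).fun_add (cD 2)))
      (hI (continuous_const.fun_mul cE)),
      integral_add (hI ((cD 0).fun_add (cD 1))) (hI (cD 2)), integral_add (hI (cD 0)) (hI (cD 1)),
      iD, iD, iD, integral_const_mul]
    simp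
  rw [this]
  refine setIntegral_mono_on (hI cG)
    (hI ((((cD 0).add (cD 1)).add (cD 2)).add (continuous_const.mul cE))) measurableSet_Icc
    fun x hx => ?_
  have key : ∑ k, 2 * (v t x k - u t x k) *
      (derivWithin (fun s => v s x k) (Icc 0 T) t - derivWithin (fun s => u s x k) (Icc 0 T) t)
      = D 0 x + D 1 x + D 2 x - 2 * ν * ∑ i, ∑ k, w1 i k x ^ 2
        + ∑ k, ∑ j, -(2 * w k x * w j x * dx j (fun y => u t y k) x) := by
    have m1 := hv.momentum t ht x
    have m2 := hu.momentum t ht x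
    have d1 := hv.div_free t ht x
    have d2 := hu.div_free t ht x
    simp only [hD, hw, hw1, hw2, hπ, hπ1, Fin.sum_univ_three] at *
    linear_combination 2 * (v t x 0 - u t x 0) * (m1 0 - m2 0)
      + 2 * (v t x 1 - u t x 1) * (m1 1 - m2 1) + 2 * (v t x 2 - u t x 2) * (m1 2 - m2 2)
      + 2 * (q t x - p t x) * (d1 - d2)
      + ((v t x 0 - u t x 0) ^ 2 + (v t x 1 - u t x 1) ^ 2 + (v t x 2 - u t x 2) ^ 2) * d1
  rw [key]
  have h1 : 0 ≤ 2 * ν * ∑ i, ∑ k, w1 i k x ^ 2 := by positivity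
  have h2 : ∑ k, ∑ j, -(2 * w k x * w j x * dx j (fun y => u t y k) x)
      ≤ ∑ k, ∑ j, L * (w k x ^ 2 + w j x ^ 2) :=
    Finset.sum_le_sum fun k _ => Finset.sum_le_sum fun j _ => quad_bound (hL k j x hx)
  have h3 : ∑ k, ∑ j, L * (w k x ^ 2 + w j x ^ 2) = 6 * L * ∑ k, (v t x k - u t x k) ^ 2 := by
    simp only [hw, Fin.sum_univ_three]; ring
  linarith

theorem velocity_unique (hν : 0 ≤ ν) (hu : IsClassical ν f T u p) (hv : IsClassical ν f T v q)
    {t : ℝ} (ht : t ∈ Icc 0 T) : v t = u t := by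
  have hT : 0 ≤ T := ht.1.trans ht.2
  obtain ⟨L, hL⟩ : ∃ L : ℝ, ∀ s ∈ Icc 0 T, ∀ k i, ∀ x ∈ Icc (0 : Pt) 1,
      |dx i (fun y => u s y k) x| ≤ L := by
    choose L hL using fun z : Fin 3 × Fin 3 => (hu.cont_ux z.1 z.2).bound
    obtain ⟨M, hM⟩ := (Set.finite_range L).bddAbove
    exact ⟨M, fun s hs k i x hx => (hL (k, i) s hs x hx).trans (hM ⟨_, rfl⟩)⟩
  obtain ⟨e, he⟩ : ∃ e : ℝ → Pt → ℝ, ∀ s x, e s x = ∑ k, (v s x k - u s x k) ^ 2 :=
    ⟨_, fun _ _ => rfl⟩
  obtain ⟨g, hg⟩ : ∃ g : ℝ → Pt → ℝ, ∀ s x, g s x = ∑ k, 2 * (v s x k - u s x k) *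
      (derivWithin (fun s => v s x k) (Icc 0 T) s - derivWithin (fun s => u s x k) (Icc 0 T) s) :=
    ⟨_, fun _ _ => rfl⟩
  have ce : Cont T e := by
    simp only [Cont, he]
    exact continuousOn_finsetSum _ fun k _ => ((hv.cont_u k).sub (hu.cont_u k)).pow 2
  have cg : Cont T g := by
    simp only [Cont, hg]
    exact continuousOn_finsetSum _ fun k _ => (continuousOn_const.mul
      ((hv.cont_u k).sub (hu.cont_u k))).mul ((hv.cont_ut k).sub (hu.cont_ut k))
  have hI : ∀ {g : Pt → ℝ}, Continuous g → IntegrableOn g (Icc (0 : Pt) 1) volume :=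
    fun hg => hg.continuousOn.integrableOn_compact isCompact_Icc
  obtain ⟨E, hE⟩ : ∃ E : ℝ → ℝ, ∀ s, E s = ∫ x in Icc (0 : Pt) 1, e s x := ⟨_, fun _ => rfl⟩
  have cE : ContinuousOn E (Icc 0 T) := by
    have h1 : Continuous (Function.uncurry fun (s : Icc (0 : ℝ) T) (x : Pt) => e s x) :=
      ContinuousOn.comp_continuous ce (f := fun z : Icc (0 : ℝ) T × Pt => ((z.1 : ℝ), z.2))
        (by fun_prop) fun z => ⟨z.1.2, trivial⟩
    have h2 := continuous_parametric_integral_of_continuous (μ := volume) h1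
      (isCompact_Icc (a := (0 : Pt)) (b := 1))
    rw [continuousOn_iff_continuous_restrict]
    exact h2.congr fun s => (hE s).symm
  obtain ⟨B, hB⟩ := cg.bound
  have dE : ∀ s ∈ Ioo 0 T, HasDerivAt E (∫ x in Icc (0 : Pt) 1, g s x) s := by
    intro s hs
    have hs' : s ∈ Icc 0 T := Ioo_subset_Icc_self hs
    have hn : Ioo 0 T ∈ 𝓝 s := Ioo_mem_nhds hs.1 hs.2
    have := (hasDerivAt_integral_of_dominated_loc_of_deriv_le (μ := volume.restrict (Icc (0 : Pt) 1))
      (F := e) (F' := g) (bound := fun _ => B) hn ?_ (hI (ce.at hs')) (cg.at hs').aestronglyMeasurable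
      ?_ (hI continuous_const) ?_).2
    · exact (funext hE : E = _) ▸ this
    · filter_upwards [hn] with r hr using (ce.at (Ioo_subset_Icc_self hr)).aestronglyMeasurable
    · filter_upwards [ae_restrict_mem measurableSet_Icc] with x hx r hr
      exact hB r (Ioo_subset_Icc_self hr) x hx
    · refine Eventually.of_forall fun x r hr => ?_
      have hr' : r ∈ Icc 0 T := Ioo_subset_Icc_self hr
      have hn' : Icc 0 T ∈ 𝓝 r := Icc_mem_nhds hr.1 hr.2
      simp only [he, hg]
      refine HasDerivAt.fun_sum fun k _ => ?_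
      have h1 := ((hv.diff_t r hr' x k).hasDerivWithinAt.hasDerivAt hn').fun_sub
        ((hu.diff_t r hr' x k).hasDerivWithinAt.hasDerivAt hn')
      simpa using h1.fun_pow 2
  have dF : ∀ s ∈ Ioo 0 T, HasDerivAt (fun r => Real.exp (-(6 * L) * r) * E r)
      (Real.exp (-(6 * L) * s) * (-(6 * L) * 1) * E s
        + Real.exp (-(6 * L) * s) * ∫ x in Icc (0 : Pt) 1, g s x) s := fun s hs =>
    (((hasDerivAt_id s).const_mul (-(6 * L))).exp).fun_mul (dE s hs)
  have anti : AntitoneOn (fun r => Real.exp (-(6 * L) * r) * E r) (Icc 0 T) := by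
    refine antitoneOn_of_deriv_nonpos (convex_Icc 0 T) ((by fun_prop : Continuous
      fun r : ℝ => Real.exp (-(6 * L) * r)).continuousOn.mul cE) ?_ ?_
    · rw [interior_Icc]
      exact fun s hs => (dF s hs).differentiableAt.differentiableWithinAt
    · rw [interior_Icc]
      intro s hs
      have hs' : s ∈ Icc 0 T := Ioo_subset_Icc_self hs
      rw [(dF s hs).deriv]
      have h1 := energy_step hν hu hv hs' (hL s hs')
      simp only [← he, ← hg, ← hE] at h1
      have := Real.exp_pos (-(6 * L) * s)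
      nlinarith
  have E0 : E 0 = 0 := by simp [hE, he, hu.rest, hv.rest]
  have h1 := anti (left_mem_Icc.2 hT) ht ht.1
  simp only [E0, mul_zero] at h1
  have en : ∀ x, 0 ≤ e t x := fun x => by rw [he]; positivity
  have h2 : E t = 0 := by
    have h3 : 0 ≤ E t := by rw [hE]; exact integral_nonneg en
    have := Real.exp_pos (-(6 * L) * t)
    nlinarith
  rw [hE, integral_eq_zero_iff_of_nonneg en (hI (ce.at ht))] at h2
  have h4 : EqOn (e t) 0 (Icc (0 : Pt) 1) := by
    refine Measure.eqOn_of_ae_eq h2 (ce.at ht).continuousOn continuousOn_const ?_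
    rw [← Set.pi_univ_Icc, interior_pi_set finite_univ, closure_pi_set]
    refine Set.pi_mono fun i _ => ?_
    simp
  have pe : Per (e t) := fun x m => by
    rw [he, he]
    exact Finset.sum_congr rfl fun k _ => congrArg (· ^ 2)
      (congrArg₂ (· - ·) (hv.per_u t ht k x m) (hu.per_u t ht k x m))
  funext x k
  have h5 : e t x = 0 := by
    rw [← pe x (fun i => -⌊x i⌋)]
    apply h4
    constructor <;> intro i
    · simpa [← sub_eq_add_neg] using Int.fract_nonneg (x i)
    · simpa [← sub_eq_add_neg] using (Int.fract_lt_one (x i)).le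
  rw [he, Finset.sum_eq_zero_iff_of_nonneg fun _ _ => sq_nonneg _] at h5
  exact sub_eq_zero.1 (pow_eq_zero_iff two_ne_zero |>.1 (h5 k (Finset.mem_univ k)))

theorem const_of_hd {g : Pt → ℝ} (h : ∀ i, HD i g fun _ => 0) (x : Pt) : g x = g 0 := by
  have key : ∀ (i : Fin 3) (y : Pt), g y = g (Function.update y i 0) := by
    intro i y
    have h1 : ∀ s, HasDerivAt (fun s => g (Function.update y i s)) 0 s := fun s => by
      simpa using h i (Function.update y i s)
    have := is_const_of_deriv_eq_zero (f := fun s => g (Function.update y i s))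
      (fun s => (h1 s).differentiableAt) (fun s => (h1 s).deriv) (y i) 0
    simpa using this
  rw [key 0 x, key 1, key 2]
  congr 1
  funext i
  fin_cases i <;> simp

theorem classical_unique (hν : 0 ≤ ν) (hu : IsClassical ν f T u p) (hv : IsClassical ν f T v q)
    {t : ℝ} (ht : t ∈ Icc 0 T) : v t = u t ∧ q t = p t := by
  refine ⟨velocity_unique hν hu hv ht, ?_⟩
  have h1 : ∀ k x, dx k (q t) x = dx k (p t) x := by
    intro k x
    have m1 := hv.momentum t ht x k
    have m2 := hu.momentum t ht x k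
    have : derivWithin (fun s => v s x k) (Icc 0 T) t = derivWithin (fun s => u s x k) (Icc 0 T) t :=
      derivWithin_congr (fun s hs => by rw [velocity_unique hν hu hv hs])
        (by rw [velocity_unique hν hu hv ht])
    rw [this, velocity_unique hν hu hv ht] at m1
    linarith
  have h2 : ∀ x, q t x - p t x = q t 0 - p t 0 := const_of_hd (g := fun x => q t x - p t x)
    fun i => by simpa [h1] using (hv.diff_p t ht i).hd.sub (hu.diff_p t ht i).hd
  have hI : ∀ {g : Pt → ℝ}, Continuous g → IntegrableOn g (Icc (0 : Pt) 1) volume :=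
    fun hg => hg.continuousOn.integrableOn_compact isCompact_Icc
  have h3 : ∫ x in Icc (0 : Pt) 1, (q t x - p t x) = 0 := by
    rw [integral_sub (hI (hv.cont_p.at ht)) (hI (hu.cont_p.at ht)), hv.mean_p t ht,
      hu.mean_p t ht, sub_zero]
  simp only [h2] at h3
  have h4 : q t 0 - p t 0 = 0 := by
    simpa [Measure.real, Real.volume_Icc_pi] using h3
  funext x
  linarith [h2 x]

end Vale.Agent.P113
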