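import Vale.Agent.P113.Defs

/-! A two-stack machine that keeps a record of every step and simulates a Turing machine. -/

namespace Vale.Agent.P113

/-- number of cell symbols -/
def nC (D : Desc) : ℕ := D.2.1 + 1
/-- bound for all stack symbols -/
def nN (D : Desc) : ℕ := nC D + 2 * (D.1 + 1) * (nC D + 1)
def hlt (D : Desc) (σ : ℕ) : Bool := D.2.2.1.getD (σ / 2) false
def look (D : Desc) (σ s : ℕ) : ℕ × ℕ × ℕ := (D.2.2.2.getD (σ / 2) []).getD s (0, 0, 0)
/-- head move -/
def mv (D : Desc) (σ s : ℕ) : ℕ :=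
  if s < nC D then (look D σ s).2.2 else if σ % 2 = 0 then 2 else 0
/-- new control symbol -/
def ns (D : Desc) (σ s : ℕ) : ℕ :=
  if s < nC D then 2 * (look D σ s).1 + (if (look D σ s).2.2 = 0 then 1 else 0) else σ
/-- written symbol -/
def ws (D : Desc) (σ s : ℕ) : ℕ := if s < nC D then (look D σ s).2.1 else s
/-- record symbol -/
def rc (D : Desc) (σ s : ℕ) : ℕ := nC D + (σ * (nC D + 1) + min s (nC D))

abbrev St : Type := ℕ × List ℕ × List ℕ

def popped (S : St) : ℕ := if S.1 % 2 = 0 then S.2.2.headD 0 else S.2.1.headD 0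
def restL (S : St) : List ℕ := if S.1 % 2 = 0 then S.2.1 else S.2.1.tail
def restR (S : St) : List ℕ := if S.1 % 2 = 0 then S.2.2.tail else S.2.2

def sstep (D : Desc) (S : St) : St :=
  (ns D S.1 (popped S),
    if mv D S.1 (popped S) = 2 then rc D S.1 (popped S) :: ws D S.1 (popped S) :: restL S
    else if mv D S.1 (popped S) = 0 then restL S else rc D S.1 (popped S) :: restL S,
    if mv D S.1 (popped S) = 2 then restR S
    else if mv D S.1 (popped S) = 0 then rc D S.1 (popped S) :: ws D S.1 (popped S) :: restR S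
    else ws D S.1 (popped S) :: restR S)

def cell (C : ℕ) (l : List ℕ) (i : ℕ) : ℕ := (l.filter (· < C)).getD i 0

theorem cell_cons_zero {C a : ℕ} (h : a < C) (l : List ℕ) : cell C (a :: l) 0 = a := by
  simp [cell, h]
theorem cell_cons_succ {C a : ℕ} (h : a < C) (l : List ℕ) (i : ℕ) :
    cell C (a :: l) (i + 1) = cell C l i := by simp [cell, h]
theorem cell_cons_junk {C a : ℕ} (h : ¬ a < C) (l : List ℕ) (i : ℕ) :
    cell C (a :: l) i = cell C l i := by simp [cell, h]
theorem cell_head {C : ℕ} {l : List ℕ} (h : l.headD 0 < C) : cell C l 0 = l.headD 0 := by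
  cases l with
  | nil => simp [cell]
  | cons a l => exact cell_cons_zero h l
theorem cell_tail {C : ℕ} {l : List ℕ} (h : l.headD 0 < C) (i : ℕ) :
    cell C l.tail i = cell C l (i + 1) := by
  cases l with
  | nil => simp [cell]
  | cons a l => exact (cell_cons_succ h l i).symm
theorem cell_tail_junk {C : ℕ} {l : List ℕ} (h : ¬ l.headD 0 < C) (i : ℕ) :
    cell C l.tail i = cell C l i := by
  cases l with
  | nil => simp [cell]
  | cons a l => exact (cell_cons_junk h l i).symm

/-- all symbols are in range -/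
structure Bd (D : Desc) (S : St) : Prop where
  st : S.1 < 2 * (D.1 + 1)
  left : ∀ a ∈ S.2.1, a < nN D
  right : ∀ a ∈ S.2.2, a < nN D

/-- the stacks represent the configuration -/
structure Rep (M : Machine) (c : Config M) (S : St) : Prop where
  bd : Bd M.desc S
  st : S.1 / 2 = c.state
  right : ∀ i : ℕ, cell (M.m + 1) S.2.2 i = c.tape (c.head + (S.1 % 2 : ℕ) + i)
  left : ∀ i : ℕ, cell (M.m + 1) S.2.1 i = c.tape (c.head + (S.1 % 2 : ℕ) - 1 - i)

theorem nC_desc (M : Machine) : nC M.desc = M.m + 1 := rfl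

theorem look_desc (M : Machine) (σ : ℕ) (q : Fin (M.n + 1)) (a : Fin (M.m + 1)) (h : σ / 2 = q) :
    look M.desc σ a = (((M.δ q a).1 : ℕ), ((M.δ q a).2.1 : ℕ), ((M.δ q a).2.2 : ℕ)) := by
  simp [look, Machine.desc, h, List.getD_eq_getElem?_getD, -List.ofFn_succ, Fin.is_le]

theorem hlt_desc (M : Machine) (σ : ℕ) (q : Fin (M.n + 1)) (h : σ / 2 = q) :
    hlt M.desc σ = M.halting q := by
  simp [hlt, Machine.desc, h, List.getD_eq_getElem?_getD, -List.ofFn_succ, Fin.is_le]

theorem nC_lt_nN (D : Desc) : nC D < nN D := by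
  unfold nN; have : 0 < 2 * (D.1 + 1) * (nC D + 1) := by positivity
  omega

theorem st_lt_nN {D : Desc} {σ : ℕ} (h : σ < 2 * (D.1 + 1)) : σ < nN D := by
  unfold nN; nlinarith [Nat.zero_le (nC D), Nat.zero_le (2 * (D.1 + 1) * nC D)]

theorem rc_lt {D : Desc} {σ : ℕ} (h : σ < 2 * (D.1 + 1)) (s : ℕ) : rc D σ s < nN D := by
  unfold rc nN
  have h1 : min s (nC D) ≤ nC D := min_le_right _ _
  have h2 : (σ + 1) * (nC D + 1) ≤ 2 * (D.1 + 1) * (nC D + 1) := Nat.mul_le_mul_right _ h
  nlinarith

theorem headD_lt {N : ℕ} (h0 : 0 < N) {l : List ℕ} (h : ∀ a ∈ l, a < N) : l.headD 0 < N := by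
  cases l with
  | nil => exact h0
  | cons a l => exact h a (by simp)

theorem Bd.popped {D : Desc} {S : St} (h : Bd D S) : popped S < nN D := by
  have h0 : 0 < nN D := lt_of_le_of_lt (Nat.zero_le _) (nC_lt_nN D)
  unfold P113.popped; split_ifs
  exacts [headD_lt h0 h.right, headD_lt h0 h.left]

theorem Bd.restL {D : Desc} {S : St} (h : Bd D S) : ∀ a ∈ restL S, a < nN D := by
  unfold P113.restL; split_ifs
  exacts [h.left, fun a ha => h.left a (List.mem_of_mem_tail ha)]

theorem Bd.restR {D : Desc} {S : St} (h : Bd D S) : ∀ a ∈ restR S, a < nN D := by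
  unfold P113.restR; split_ifs
  exacts [fun a ha => h.right a (List.mem_of_mem_tail ha), h.right]

theorem Bd.step {D : Desc} {S : St} (h : Bd D S) (h1 : ns D S.1 (P113.popped S) < 2 * (D.1 + 1))
    (h2 : ws D S.1 (P113.popped S) < nN D) : Bd D (sstep D S) := by
  have h3 := rc_lt h.st (P113.popped S)
  have h4 := h.restL
  have h5 := h.restR
  refine ⟨h1, ?_, ?_⟩ <;> simp only [sstep] <;> split_ifs <;> simp_all

theorem rc_junk (D : Desc) (σ s : ℕ) : ¬ rc D σ s < nC D := by unfold rc; omega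

theorem Rep.junk {M : Machine} {c : Config M} {S : St} (h : Rep M c S)
    (hs : ¬ popped S < M.m + 1) : Rep M c (sstep M.desc S) ∧ (sstep M.desc S).1 = S.1 ∧
      (if S.1 % 2 = 0 then (sstep M.desc S).2.2.length < S.2.2.length
        else (sstep M.desc S).2.1.length < S.2.1.length) := by
  have e1 : ns M.desc S.1 (popped S) = S.1 := by simp [ns, nC_desc, hs]
  have e2 : ws M.desc S.1 (popped S) = popped S := by simp [ws, nC_desc, hs]
  have hb := h.bd.step (by rw [e1]; exact h.bd.st) (by rw [e2]; exact h.bd.popped)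
  have hr := rc_junk M.desc S.1 (popped S)
  rw [nC_desc] at hr
  have e0 : (sstep M.desc S).1 = S.1 := e1
  by_cases hd : S.1 % 2 = 0
  · have e3 : mv M.desc S.1 (popped S) = 2 := by simp [mv, nC_desc, hs, hd]
    have e4 : popped S = S.2.2.headD 0 := by simp [popped, hd]
    have eL : (sstep M.desc S).2.1 = rc M.desc S.1 (popped S) :: popped S :: S.2.1 := by
      simp [sstep, e3, e2, restL, hd]
    have eR : (sstep M.desc S).2.2 = S.2.2.tail := by simp [sstep, e3, restR, hd]
    refine ⟨⟨hb, by rw [e0]; exact h.st, fun i => ?_, fun i => ?_⟩, e0, ?_⟩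
    · rw [eR, e0, cell_tail_junk (e4 ▸ hs), h.right]
    · rw [eL, e0, cell_cons_junk hr, cell_cons_junk hs, h.left]
    · rw [if_pos hd, eR]
      rw [e4] at hs
      cases hR : S.2.2 with
      | nil => simp [hR] at hs
      | cons a l => simp
  · have e3 : mv M.desc S.1 (popped S) = 0 := by simp [mv, nC_desc, hs, hd]
    have e4 : popped S = S.2.1.headD 0 := by simp [popped, hd]
    have eR : (sstep M.desc S).2.2 = rc M.desc S.1 (popped S) :: popped S :: S.2.2 := by
      simp [sstep, e3, e2, restR, hd]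
    have eL : (sstep M.desc S).2.1 = S.2.1.tail := by simp [sstep, e3, restL, hd]
    refine ⟨⟨hb, by rw [e0]; exact h.st, fun i => ?_, fun i => ?_⟩, e0, ?_⟩
    · rw [eR, e0, cell_cons_junk hr, cell_cons_junk hs, h.right]
    · rw [eL, e0, cell_tail_junk (e4 ▸ hs), h.left]
    · rw [if_neg hd, eL]
      rw [e4] at hs
      cases hR : S.2.1 with
      | nil => simp [hR] at hs
      | cons a l => simp

theorem Rep.real {M : Machine} {c : Config M} {S : St} (h : Rep M c S)
    (hs : popped S < M.m + 1) : Rep M (M.step c) (sstep M.desc S) := by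
  have hp : popped S = c.tape c.head ∧
      (∀ i : ℕ, cell (M.m + 1) (restR S) i = c.tape (c.head + 1 + i)) ∧
      (∀ i : ℕ, cell (M.m + 1) (restL S) i = c.tape (c.head - 1 - i)) := by
    by_cases hd : S.1 % 2 = 0
    · have e4 : popped S = S.2.2.headD 0 := by simp [popped, hd]
      rw [e4] at hs
      refine ⟨?_, fun i => ?_, fun i => ?_⟩
      · rw [e4, ← cell_head hs, h.right, hd]; simp
      · rw [restR, if_pos hd, cell_tail hs, h.right, hd]; congr 2; push_cast; ring
      · rw [restL, if_pos hd, h.left, hd]; simp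
    · have e4 : popped S = S.2.1.headD 0 := by simp [popped, hd]
      have hd' : S.1 % 2 = 1 := by omega
      rw [e4] at hs
      refine ⟨?_, fun i => ?_, fun i => ?_⟩
      · rw [e4, ← cell_head hs, h.left, hd']; simp
      · rw [restR, if_neg hd, h.right, hd']; simp
      · rw [restL, if_neg hd, cell_tail hs, h.left, hd']; congr 2; push_cast; ring
  obtain ⟨h1, hR, hL⟩ := hp
  have hl := look_desc M S.1 c.state (c.tape c.head) h.st
  rw [← h1] at hl
  obtain ⟨r, hr⟩ : ∃ r, M.δ c.state (c.tape c.head) = r := ⟨_, rfl⟩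
  rw [hr] at hl
  have e1 : ns M.desc S.1 (popped S) = 2 * r.1 + if (r.2.2 : ℕ) = 0 then 1 else 0 := by
    simp only [ns, nC_desc, hs, hl, if_true]
  have e2 : ws M.desc S.1 (popped S) = r.2.1 := by simp only [ws, nC_desc, hs, hl, if_true]
  have e3 : mv M.desc S.1 (popped S) = r.2.2 := by simp only [mv, nC_desc, hs, hl, if_true]
  have hb := h.bd.step (by
    rw [e1]; have := r.1.2; simp only [Machine.desc]; split_ifs <;> omega)
    (by rw [e2]; exact r.2.1.2.trans (nC_lt_nN M.desc))
  have hj := rc_junk M.desc S.1 (popped S)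
  rw [nC_desc] at hj
  have e0 : (sstep M.desc S).1 = 2 * r.1 + if (r.2.2 : ℕ) = 0 then 1 else 0 := e1
  have t0 : (M.step c).tape c.head = r.2.1 := by simp [Machine.step, hr]
  have t1 : ∀ z, z ≠ c.head → (M.step c).tape z = c.tape z := fun z hz => by
    simp [Machine.step, Function.update_of_ne hz]
  have t2 : (M.step c).head = c.head + ((r.2.2 : ℕ) : ℤ) - 1 := by simp [Machine.step, hr]
  have consR : ∀ i : ℕ, cell (M.m + 1) ((r.2.1 : ℕ) :: restR S) i = (M.step c).tape (c.head + i) := by
    intro i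
    cases i with
    | zero => rw [cell_cons_zero r.2.1.2]; simp [t0]
    | succ i => rw [cell_cons_succ r.2.1.2, hR, t1 _ (by push_cast; omega)]; congr 2; push_cast; ring
  have consL : ∀ i : ℕ, cell (M.m + 1) ((r.2.1 : ℕ) :: restL S) i = (M.step c).tape (c.head - i) := by
    intro i
    cases i with
    | zero => rw [cell_cons_zero r.2.1.2]; simp [t0]
    | succ i => rw [cell_cons_succ r.2.1.2, hL, t1 _ (by push_cast; omega)]; congr 2; push_cast; ring
  have hR' : ∀ i : ℕ, cell (M.m + 1) (restR S) i = (M.step c).tape (c.head + 1 + i) :=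
    fun i => by rw [hR, t1 _ (by omega)]
  have hL' : ∀ i : ℕ, cell (M.m + 1) (restL S) i = (M.step c).tape (c.head - 1 - i) :=
    fun i => by rw [hL, t1 _ (by omega)]
  have h3 : (r.2.2 : ℕ) = 0 ∨ (r.2.2 : ℕ) = 1 ∨ (r.2.2 : ℕ) = 2 := by have := r.2.2.2; omega
  refine ⟨hb, ?_, fun i => ?_, fun i => ?_⟩
  · rw [e0]; simp only [Machine.step, hr]; split_ifs <;> omega
  · rw [e0, t2]
    simp only [sstep, e2, e3]
    rcases h3 with h3 | h3 | h3 <;> simp only [h3] <;> norm_num
    · rw [cell_cons_junk hj, consR]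
    · rw [consR]
    · rw [hR']; congr 2; ring
  · rw [e0, t2]
    simp only [sstep, e2, e3]
    rcases h3 with h3 | h3 | h3 <;> simp only [h3] <;> norm_num
    · rw [hL']
    · rw [cell_cons_junk hj, hL']
    · rw [cell_cons_junk hj, consL]; congr 2; ring

/-- the initial stack configuration -/
def sinit (w : List ℕ) : St := (0, [], w)

theorem rep_init (M : Machine) (w : List (Fin (M.m + 1))) :
    Rep M (M.init w) (sinit (w.map Fin.val)) := by
  refine ⟨⟨by simp [sinit], by simp [sinit], ?_⟩, by simp [sinit, Machine.init], fun i => ?_,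
    fun i => ?_⟩
  · intro a ha
    simp only [sinit, List.mem_map] at ha
    obtain ⟨b, -, rfl⟩ := ha
    exact b.2.trans (nC_lt_nN M.desc)
  · have : (w.map Fin.val).filter (· < M.m + 1) = w.map Fin.val := by
      rw [List.filter_eq_self]
      intro a ha
      simp only [List.mem_map] at ha
      obtain ⟨b, -, rfl⟩ := ha
      simpa using b.2
    simp only [cell, sinit, this, Machine.init]
    simp only [List.getD_eq_getElem?_getD, List.getElem?_map]
    simp
    cases w[i]? <;> simp
  · have : ¬ (i : ℤ) ≤ -1 := by omega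
    simp [cell, sinit, Machine.init, this]

theorem Rep.advance {M : Machine} {c : Config M} {S : St} (h : Rep M c S) :
    ∃ j, Rep M (M.step c) ((sstep M.desc)^[j] S) := by
  obtain ⟨n, hn⟩ : ∃ n, (if S.1 % 2 = 0 then S.2.2.length else S.2.1.length) = n := ⟨_, rfl⟩
  induction n using Nat.strong_induction_on generalizing S with
  | _ n ih =>
    by_cases hs : popped S < M.m + 1
    · exact ⟨1, h.real hs⟩
    · obtain ⟨h1, h2, h3⟩ := h.junk hs
      obtain ⟨j, hj⟩ := ih _ (by rw [← hn, h2]; split_ifs at h3 ⊢ <;> exact h3) h1 rfl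
      exact ⟨j + 1, hj⟩

theorem rep_iter (M : Machine) (w : List (Fin (M.m + 1))) (j : ℕ) :
    ∃ k, Rep M (M.step^[k] (M.init w)) ((sstep M.desc)^[j] (sinit (w.map Fin.val))) := by
  induction j with
  | zero => exact ⟨0, rep_init M w⟩
  | succ j ih =>
    obtain ⟨k, hk⟩ := ih
    rw [Function.iterate_succ_apply']
    by_cases hs : popped ((sstep M.desc)^[j] (sinit (w.map Fin.val))) < M.m + 1
    · exact ⟨k + 1, by rw [Function.iterate_succ_apply']; exact hk.real hs⟩
    · exact ⟨k, (hk.junk hs).1⟩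

theorem rep_iter' (M : Machine) (w : List (Fin (M.m + 1))) (k : ℕ) :
    ∃ j, Rep M (M.step^[k] (M.init w)) ((sstep M.desc)^[j] (sinit (w.map Fin.val))) := by
  induction k with
  | zero => exact ⟨0, rep_init M w⟩
  | succ k ih =>
    obtain ⟨j, hj⟩ := ih
    obtain ⟨i, hi⟩ := hj.advance
    exact ⟨i + j, by rw [Function.iterate_succ_apply', Function.iterate_add_apply]; exact hi⟩

theorem halts_iff (M : Machine) (w : List (Fin (M.m + 1))) :
    M.Halts w ↔ ∃ j, hlt M.desc ((sstep M.desc)^[j] (sinit (w.map Fin.val))).1 = true := by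
  constructor
  · rintro ⟨k, hk⟩
    obtain ⟨j, hj⟩ := rep_iter' M w k
    exact ⟨j, by rw [hlt_desc M _ _ hj.st]; exact hk⟩
  · rintro ⟨j, hj⟩
    obtain ⟨k, hk⟩ := rep_iter M w j
    exact ⟨k, by rw [← hlt_desc M _ _ hk.st]; exact hj⟩

theorem bd_iter (M : Machine) (w : List (Fin (M.m + 1))) (j : ℕ) :
    Bd M.desc ((sstep M.desc)^[j] (sinit (w.map Fin.val))) :=
  (rep_iter M w j).choose_spec.bd

end Vale.Agent.P113
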