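import Vale.Agent.P113.Flow
import Vale.Agent.P113.Mach

/-! The velocity field and the force attached to a machine description and an input. -/

namespace Vale.Agent.P113

open Filter Topology Real Set

section
variable {α σ : Type} [Primcodable α] [Primcodable σ]

@[fun_prop] theorem c_ite_lt {f g : α → ℕ} {x y : α → σ} (hf : Computable f) (hg : Computable g)
    (hx : Computable x) (hy : Computable y) :
    Computable (fun a => if f a < g a then x a else y a) := by
  refine (c_cond (c := fun a => Nat.ble (f a + 1) (g a)) (by fun_prop) hx hy).of_eq fun a => ?_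
  split_ifs with h
  · have : Nat.ble (f a + 1) (g a) = true := by simpa using h
    simp [this]
  · have : Nat.ble (f a + 1) (g a) = false := by rw [Bool.eq_false_iff]; simpa using h
    simp [this]

@[fun_prop] theorem c_ite_eq {f g : α → ℕ} {x y : α → σ} (hf : Computable f) (hg : Computable g)
    (hx : Computable x) (hy : Computable y) :
    Computable (fun a => if f a = g a then x a else y a) := by
  refine (c_cond (c := fun a => Nat.beq (f a) (g a)) (by fun_prop) hx hy).of_eq fun a => ?_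
  split_ifs with h
  · have : Nat.beq (f a) (g a) = true := by simpa using h
    simp [this]
  · have : Nat.beq (f a) (g a) = false := by rw [Bool.eq_false_iff]; simpa using h
    simp [this]

@[fun_prop] theorem CR.ite_eq {f g : α → ℕ} {x y : α → ℝ} (hf : Computable f) (hg : Computable g)
    (hx : CR x) (hy : CR y) : CR (fun a => if f a = g a then x a else y a) := by
  refine (CR.cond (b := fun a => Nat.beq (f a) (g a)) (by fun_prop) hx hy).of_eq fun a => ?_
  split_ifs with h
  · have : Nat.beq (f a) (g a) = true := by simpa using h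
    simp [this]
  · have : Nat.beq (f a) (g a) = false := by rw [Bool.eq_false_iff]; simpa using h
    simp [this]

@[fun_prop] theorem c_nC {f : α → Desc} (hf : Computable f) : Computable (fun a => nC (f a)) := by
  unfold nC; fun_prop
@[fun_prop] theorem c_nN {f : α → Desc} (hf : Computable f) : Computable (fun a => nN (f a)) := by
  unfold nN; fun_prop
@[fun_prop] theorem c_hlt {f : α → Desc} {g : α → ℕ} (hf : Computable f) (hg : Computable g) :
    Computable (fun a => hlt (f a) (g a)) := by unfold hlt; fun_prop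
@[fun_prop] theorem c_look {f : α → Desc} {g h : α → ℕ} (hf : Computable f) (hg : Computable g)
    (hh : Computable h) : Computable (fun a => look (f a) (g a) (h a)) := by unfold look; fun_prop
@[fun_prop] theorem c_mv {f : α → Desc} {g h : α → ℕ} (hf : Computable f) (hg : Computable g)
    (hh : Computable h) : Computable (fun a => mv (f a) (g a) (h a)) := by unfold mv; fun_prop
@[fun_prop] theorem c_ns {f : α → Desc} {g h : α → ℕ} (hf : Computable f) (hg : Computable g)
    (hh : Computable h) : Computable (fun a => ns (f a) (g a) (h a)) := by unfold ns; fun_prop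
@[fun_prop] theorem c_ws {f : α → Desc} {g h : α → ℕ} (hf : Computable f) (hg : Computable g)
    (hh : Computable h) : Computable (fun a => ws (f a) (g a) (h a)) := by unfold ws; fun_prop
@[fun_prop] theorem c_rc {f : α → Desc} {g h : α → ℕ} (hf : Computable f) (hg : Computable g)
    (hh : Computable h) : Computable (fun a => rc (f a) (g a) (h a)) := by unfold rc; fun_prop
end

/-- the base of the digit expansions -/
def nB (D : Desc) : ℕ := 2 * nN D

/-- the real number coding a stack -/
noncomputable def enc (B : ℕ) : List ℕ → ℝ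
  | [] => 0
  | s :: l => (s + enc B l) / B

def xP (D : Desc) (σ : ℕ) : ℕ := if σ % 2 = 0 then nB D else nB D ^ 2
def xU (D : Desc) (σ s : ℕ) : ℕ := if σ % 2 = 0 then σ else σ * nB D + s
def xP' (D : Desc) (σ s : ℕ) : ℕ :=
  if mv D σ s = 2 then nB D ^ 3 else if mv D σ s = 0 then nB D else nB D ^ 2
def xU' (D : Desc) (σ s : ℕ) : ℕ :=
  if mv D σ s = 2 then ns D σ s * nB D ^ 2 + rc D σ s * nB D + ws D σ s
  else if mv D σ s = 0 then ns D σ s else ns D σ s * nB D + rc D σ s
def zP (D : Desc) (σ : ℕ) : ℕ := if σ % 2 = 0 then nB D else 1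
def zU (σ s : ℕ) : ℕ := if σ % 2 = 0 then s else 0
def zP' (D : Desc) (σ s : ℕ) : ℕ :=
  if mv D σ s = 2 then 1 else if mv D σ s = 0 then nB D ^ 2 else nB D
def zU' (D : Desc) (σ s : ℕ) : ℕ :=
  if mv D σ s = 2 then 0 else if mv D σ s = 0 then rc D σ s * nB D + ws D σ s else ws D σ s

/-- the record read from the leading digits of a target configuration -/
def drc (D : Desc) (j₁ j₂ : ℕ) : ℕ :=
  if j₂ / nB D ^ 2 % 2 = 0 then j₂ / nB D % nB D else j₁ / nB D
def dws (D : Desc) (j₁ j₂ : ℕ) : ℕ := if j₂ / nB D ^ 2 % 2 = 0 then j₂ % nB D else j₁ % nB D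

/-- the control symbol and popped symbol of the current instruction, in window `r` -/
def iσ (D : Desc) (r j₁ j₂ : ℕ) : ℕ :=
  if r = 3 then j₁ / nB D else if r = 5 then (drc D j₁ j₂ - nC D) / (nC D + 1) else j₂ / nB D
def is (D : Desc) (r j₁ j₂ : ℕ) : ℕ :=
  if r = 1 then (if j₂ / nB D % 2 = 0 then j₁ else j₂ % nB D)
  else if r = 3 then j₁ % nB D
  else if r = 5 then
    (if (drc D j₁ j₂ - nC D) % (nC D + 1) < nC D then (drc D j₁ j₂ - nC D) % (nC D + 1)
      else dws D j₁ j₂)
  else j₂ % nB D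

def pick (e : ℕ) (a b c : ℝ) : ℝ := if e = 0 then a else if e = 1 then b else c

/-- the affine coefficients in terms of the instruction -/
noncomputable def coI (D : Desc) (r σ s e : ℕ) : ℝ :=
  if r = 1 then
    cond (hlt D σ) (pick e 0 0 (((5 : ℕ) : ℝ) / (8 : ℕ)))
      (pick e (((1 : ℕ) : ℝ) / (nB D ^ 2 : ℕ)) 0 ((σ * nB D + s : ℕ) / (nB D ^ 2 : ℕ)))
  else if r = 2 then pick e 1 (-(nB D ^ 2 : ℕ)) (σ * nB D + s : ℕ)
  else if r = 3 then pick e 0 ((xP D σ : ℝ) / xP' D σ s - 1) (((xU' D σ s : ℝ) - xU D σ s) / xP' D σ s)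
  else if r = 4 then pick e (-(xP' D σ s : ℝ) / xP D σ) ((zP D σ * nB D ^ 2 : ℕ) / zP' D σ s)
      (((zU' D σ s : ℝ) - zU σ s - (zP D σ * (σ * nB D + s) : ℕ)) / zP' D σ s
        + ((xU' D σ s : ℝ) - xU D σ s) / xP D σ)
  else pick e (-(zP' D σ s : ℝ) / (zP D σ * nB D ^ 2 : ℕ)) 0
      (-(((σ * nB D + s) * zP D σ : ℕ) - (zU' D σ s : ℝ) + zU σ s) / (zP D σ * nB D ^ 2 : ℕ))

noncomputable def co (D : Desc) (w : List ℕ) (r j₁ j₂ e : ℕ) : ℝ :=
  if r = 0 then pick e 0 0 (enc (nB D) w) else coI D r (iσ D r j₁ j₂) (is D r j₁ j₂) e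

def K₁ (D : Desc) (r : ℕ) : ℕ :=
  if r = 1 then nB D else if r = 3 then nB D ^ 2 else if r = 5 then nB D ^ 2 else 1
def K₂ (D : Desc) (r : ℕ) : ℕ :=
  if r = 0 then 1 else if r = 3 then 1 else if r = 5 then nB D ^ 3 else nB D ^ 2
/-- the direction of window `r` -/
def wd (r : ℕ) : ℕ := if r = 1 then 1 else if r = 3 then 0 else if r = 5 then 1 else 2
def wdir (r : ℕ) : Fin 3 := if r = 1 then 1 else if r = 3 then 0 else if r = 5 then 1 else 2
theorem wdir_val (r : ℕ) : (wdir r : ℕ) = wd r := by unfold wdir wd; split_ifs <;> rfl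
/-- the window used on the time interval `[n, n+1]` -/
def win (n : ℕ) : ℕ := if n = 0 then 0 else 1 + (n - 1) % 5

section
variable {α : Type} [Primcodable α]
@[fun_prop] theorem c_nB {f : α → Desc} (hf : Computable f) : Computable (fun a => nB (f a)) := by
  unfold nB; fun_prop
@[fun_prop] theorem c_xP {f : α → Desc} {g : α → ℕ} (hf : Computable f) (hg : Computable g) :
    Computable (fun a => xP (f a) (g a)) := by unfold xP; fun_prop
@[fun_prop] theorem c_zP {f : α → Desc} {g : α → ℕ} (hf : Computable f) (hg : Computable g) :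
    Computable (fun a => zP (f a) (g a)) := by unfold zP; fun_prop
@[fun_prop] theorem c_zU {f g : α → ℕ} (hf : Computable f) (hg : Computable g) :
    Computable (fun a => zU (f a) (g a)) := by unfold zU; fun_prop
@[fun_prop] theorem c_xU {f : α → Desc} {g h : α → ℕ} (hf : Computable f) (hg : Computable g)
    (hh : Computable h) : Computable (fun a => xU (f a) (g a) (h a)) := by unfold xU; fun_prop
@[fun_prop] theorem c_xP' {f : α → Desc} {g h : α → ℕ} (hf : Computable f) (hg : Computable g)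
    (hh : Computable h) : Computable (fun a => xP' (f a) (g a) (h a)) := by unfold xP'; fun_prop
@[fun_prop] theorem c_xU' {f : α → Desc} {g h : α → ℕ} (hf : Computable f) (hg : Computable g)
    (hh : Computable h) : Computable (fun a => xU' (f a) (g a) (h a)) := by unfold xU'; fun_prop
@[fun_prop] theorem c_zP' {f : α → Desc} {g h : α → ℕ} (hf : Computable f) (hg : Computable g)
    (hh : Computable h) : Computable (fun a => zP' (f a) (g a) (h a)) := by unfold zP'; fun_prop
@[fun_prop] theorem c_zU' {f : α → Desc} {g h : α → ℕ} (hf : Computable f) (hg : Computable g)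
    (hh : Computable h) : Computable (fun a => zU' (f a) (g a) (h a)) := by unfold zU'; fun_prop
@[fun_prop] theorem c_drc {f : α → Desc} {g h : α → ℕ} (hf : Computable f) (hg : Computable g)
    (hh : Computable h) : Computable (fun a => drc (f a) (g a) (h a)) := by unfold drc; fun_prop
@[fun_prop] theorem c_dws {f : α → Desc} {g h : α → ℕ} (hf : Computable f) (hg : Computable g)
    (hh : Computable h) : Computable (fun a => dws (f a) (g a) (h a)) := by unfold dws; fun_prop
@[fun_prop] theorem c_iσ {f : α → Desc} {r g h : α → ℕ} (hf : Computable f) (hr : Computable r)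
    (hg : Computable g) (hh : Computable h) :
    Computable (fun a => iσ (f a) (r a) (g a) (h a)) := by unfold iσ; fun_prop
@[fun_prop] theorem c_is {f : α → Desc} {r g h : α → ℕ} (hf : Computable f) (hr : Computable r)
    (hg : Computable g) (hh : Computable h) :
    Computable (fun a => is (f a) (r a) (g a) (h a)) := by unfold is; fun_prop
@[fun_prop] theorem c_K₁ {f : α → Desc} {g : α → ℕ} (hf : Computable f) (hg : Computable g) :
    Computable (fun a => K₁ (f a) (g a)) := by unfold K₁; fun_prop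
@[fun_prop] theorem c_K₂ {f : α → Desc} {g : α → ℕ} (hf : Computable f) (hg : Computable g) :
    Computable (fun a => K₂ (f a) (g a)) := by unfold K₂; fun_prop
@[fun_prop] theorem c_wd {g : α → ℕ} (hg : Computable g) : Computable (fun a => wd (g a)) := by
  unfold wd; fun_prop
@[fun_prop] theorem c_win {g : α → ℕ} (hg : Computable g) : Computable (fun a => win (g a)) := by
  unfold win; fun_prop

attribute [fun_prop] CR.zero CR.one

@[fun_prop] theorem CR.pick {e : α → ℕ} {x y z : α → ℝ} (he : Computable e) (hx : CR x) (hy : CR y)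
    (hz : CR z) : CR (fun a => pick (e a) (x a) (y a) (z a)) := by
  unfold P113.pick
  exact CR.ite_eq he (by fun_prop) hx (CR.ite_eq he (by fun_prop) hy hz)

theorem cr_coI : CR (fun z : Desc × ℕ × ℕ × ℕ × ℕ => coI z.1 z.2.1 z.2.2.1 z.2.2.2.1 z.2.2.2.2) := by
  unfold coI
  refine CR.ite_eq (by fun_prop) (by fun_prop) (CR.cond (by fun_prop) ?_ ?_)
    (CR.ite_eq (by fun_prop) (by fun_prop) ?_ (CR.ite_eq (by fun_prop) (by fun_prop) ?_
      (CR.ite_eq (by fun_prop) (by fun_prop) ?_ ?_)))
  · exact CR.pick (by fun_prop) CR.zero CR.zero (CR.divNat (CR.natCast (by fun_prop)) (by fun_prop))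
  · exact CR.pick (by fun_prop) (CR.divNat (CR.natCast (by fun_prop)) (by fun_prop)) CR.zero
      (by fun_prop)
  · exact CR.pick (by fun_prop) CR.one (by fun_prop) (by fun_prop)
  · exact CR.pick (by fun_prop) CR.zero (CR.sub (by fun_prop) CR.one) (by fun_prop)
  · exact CR.pick (by fun_prop) (by fun_prop) (by fun_prop) (by fun_prop)
  · exact CR.pick (by fun_prop) (by fun_prop) CR.zero (by fun_prop)

theorem cr_enc : CR (fun z : Desc × List ℕ => enc (nB z.1) z.2) := by
  have h1 : Primrec (fun z : ℕ × List ℕ => z.2.foldr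
      (fun s q => qmul (qadd (qnat s) q) (qinv (qnat z.1))) (qnat 0)) :=
    Primrec.list_foldr (f := fun z : ℕ × List ℕ => z.2) (g := fun _ => qnat 0)
      (h := fun z w => qmul (qadd (qnat w.1) w.2) (qinv (qnat z.1))) (by fun_prop) (by fun_prop)
      (Primrec.to₂ (f := fun w : (ℕ × List ℕ) × ℕ × Q =>
        qmul (qadd (qnat w.2.1) w.2.2) (qinv (qnat w.1.1))) (by fun_prop))
  refine (CR.qv (h1.to_comp.comp (g := fun z : Desc × List ℕ => (nB z.1, z.2))
    (by fun_prop))).of_eq fun z => ?_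
  have hB : 0 < nB z.1 := by have := nC_lt_nN z.1; unfold nB; omega
  dsimp only
  induction z.2 with
  | nil => simp [enc]
  | cons s l ih =>
    rw [List.foldr_cons, qv_mul, qv_add, ih, qv_inv _ (by simpa using hB)]
    simp [enc, div_eq_mul_inv]
end

/-- indices of the terms -/
abbrev Ix : Type := ((((Desc × List ℕ) × ℕ) × ℕ) × ℕ) × ℕ

noncomputable def tc (k : Fin 3) (z : Ix) : ℝ :=
  if wd z.1.1.1.2 = k then co z.1.1.1.1.1 z.1.1.1.1.2 z.1.1.1.2 z.1.1.2 z.1.2 z.2 else 0

noncomputable def tau (r : ℕ) : ℝ → ℝ := patch (fun n => Nat.beq (win n) r) theta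

noncomputable def tg (k : Fin 3) (z : Ix) (i : Fin 3) : ℝ → ℝ :=
  if i = k then fun _ => 1
  else if i = k + 1 then pbas (K₁ z.1.1.1.1.1 z.1.1.1.2) z.1.1.2 (Nat.beq z.2 0)
  else pbas (K₂ z.1.1.1.1.1 z.1.1.1.2) z.1.2 (Nat.beq z.2 1)

noncomputable def tg2 (k : Fin 3) (z : Ix) (j : Fin 3) : Fin 3 → ℝ → ℝ :=
  Function.update (tg k z) j (deriv (deriv (tg k z j)))

theorem cr_tc (k : Fin 3) : CR (tc k) := by
  unfold tc co
  refine CR.ite_eq (by fun_prop) (by fun_prop) (CR.ite_eq (by fun_prop) (by fun_prop)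
    (CR.pick (by fun_prop) CR.zero CR.zero
      (cr_enc.comp (f := fun z : Ix => z.1.1.1.1) (by fun_prop))) ?_) CR.zero
  exact cr_coI.comp (f := fun z : Ix => (z.1.1.1.1.1, z.1.1.1.2,
    iσ z.1.1.1.1.1 z.1.1.1.2 z.1.1.2 z.1.2, is z.1.1.1.1.1 z.1.1.1.2 z.1.1.2 z.1.2, z.2))
    (by fun_prop)

theorem es_tau : ES (fun z : Ix => tau z.1.1.1.2) :=
  ES.patch (c := fun w : Ix × ℕ => Nat.beq (win w.2) w.1.1.1.1.2) (by fun_prop) es_theta
    fun _ => supp_theta

theorem es_tg (k i : Fin 3) : ES (fun z : Ix => tg k z i) := by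
  unfold tg
  split_ifs
  · exact ES.one
  · exact es_pbas.comp (f := fun z : Ix => (K₁ z.1.1.1.1.1 z.1.1.1.2, z.1.1.2, Nat.beq z.2 0))
      (by fun_prop)
  · exact es_pbas.comp (f := fun z : Ix => (K₂ z.1.1.1.1.1 z.1.1.1.2, z.1.2, Nat.beq z.2 1))
      (by fun_prop)

theorem es_tg2 (k j i : Fin 3) : ES (fun z : Ix => tg2 k z j i) := by
  unfold tg2
  by_cases h : i = j
  · subst h
    simpa using (es_tg k i).deriv.deriv
  · simpa [Function.update_of_ne h] using es_tg k i

/-- velocity terms and force terms -/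
noncomputable def uterm (k : Fin 3) (z : Ix) : ST := sep (tc k z) (tau z.1.1.1.2) (tg k z)

noncomputable def fterm (ν : ℝ) (k : Fin 3) (z : Ix) : ST := fun t x =>
  sep (tc k z) (deriv (tau z.1.1.1.2)) (tg k z) t x
    + sep (-ν * tc k z) (tau z.1.1.1.2) (tg2 k z 0) t x
    + sep (-ν * tc k z) (tau z.1.1.1.2) (tg2 k z 1) t x
    + sep (-ν * tc k z) (tau z.1.1.1.2) (tg2 k z 2) t x

/-- the sum over all terms -/
noncomputable def tot (F : Ix → ST) (a : Desc × List ℕ) : ST := fun t x =>
  ∑ r ∈ Finset.range 6, ∑ j₁ ∈ Finset.range (nB a.1 ^ 3), ∑ j₂ ∈ Finset.range (nB a.1 ^ 3),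
    ∑ e ∈ Finset.range 3, F ((((a, r), j₁), j₂), e) t x

theorem EF.tot {F : Ix → ST} (h : EF F) : EF (tot F) := by
  have h1 := EF.sum (n := fun _ => 3) h (by fun_prop)
  have h2 := EF.sum (n := fun z : ((Desc × List ℕ) × ℕ) × ℕ => nB z.1.1.1 ^ 3) h1 (by fun_prop)
  have h3 := EF.sum (n := fun z : (Desc × List ℕ) × ℕ => nB z.1.1 ^ 3) h2 (by fun_prop)
  have h4 := EF.sum (n := fun _ => 6) h3 (by fun_prop)
  exact h4.of_eq fun _ _ _ => rfl

theorem Good.tot {L : ST → ST} (hL : Good L) {F : Ix → ST} (h : ∀ z, Sm (F z))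
    (a : Desc × List ℕ) : L (tot F a) = tot (fun z => L (F z)) a := by
  unfold P113.tot
  rw [hL.2 _ _ _ fun r => Sm.sum fun j₁ => Sm.sum fun j₂ => Sm.sum fun e => h _]
  funext t x
  refine Finset.sum_congr rfl fun r _ => ?_
  rw [hL.2 _ _ _ fun j₁ => Sm.sum fun j₂ => Sm.sum fun e => h _]
  refine Finset.sum_congr rfl fun j₁ _ => ?_
  rw [hL.2 _ _ _ fun j₂ => Sm.sum fun e => h _]
  refine Finset.sum_congr rfl fun j₂ _ => ?_
  rw [hL.2 _ _ _ fun e => h _]

theorem ef_uterm (k : Fin 3) : EF (uterm k) := EF.sep (cr_tc k) es_tau (es_tg k)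

theorem ef_fterm {ν : ℝ} (hν : ComputableReal ν) (k : Fin 3) : EF (fterm ν k) := by
  have hc : CR (fun z => -ν * tc k z) := (CR.const_of hν).neg.mul (cr_tc k)
  exact (((EF.sep (cr_tc k) es_tau.deriv (es_tg k)).add (EF.sep hc es_tau (es_tg2 k 0))).add
    (EF.sep hc es_tau (es_tg2 k 1))).add (EF.sep hc es_tau (es_tg2 k 2))

noncomputable def vel (a : Desc × List ℕ) : ℝ → Pt → Pt := fun t x k => tot (uterm k) a t x
noncomputable def force (ν : ℝ) (a : Desc × List ℕ) : ℝ → Pt → Pt :=
  fun t x k => tot (fterm ν k) a t x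

theorem fterm_eq (ν : ℝ) (k : Fin 3) (z : Ix) (t : ℝ) (x : Pt) :
    fterm ν k z t x = Dt (uterm k z) t x - ν * ∑ j, Dx j (Dx j (uterm k z)) t x := by
  simp only [fterm, uterm, Dt_sep, Dx_sep, Fin.sum_univ_three, tg2, Function.update_self,
    Function.update_idem, sep]
  ring

theorem force_eq (ν : ℝ) (a : Desc × List ℕ) (k : Fin 3) (t : ℝ) (x : Pt) :
    force ν a t x k = Dt (tot (uterm k) a) t x - ν * ∑ j, Dx j (Dx j (tot (uterm k) a)) t x := by
  have hs := (ef_uterm k).1
  have h2 : ∀ j, Dx j (Dx j (tot (uterm k) a)) = tot (fun z => Dx j (Dx j (uterm k z))) a :=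
    fun j => ((good_Dx j).comp (good_Dx j)).tot hs a
  simp only [h2, good_Dt.tot hs a, force, tot, fterm_eq, Fin.sum_univ_three, Finset.mul_sum,
    Finset.sum_sub_distrib, Finset.sum_add_distrib, mul_add]

end Vale.Agent.P113
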