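import Vale.Agent.P113.Sim
import Vale.Agent.P113.Energy

/-! Assembly: halting detection, classical solution, force compiler. -/

namespace Vale.Agent.P113

open Filter Topology Real Set MeasureTheory

noncomputable def PP (D : Desc) (w : List ℕ) (n : ℕ) : Pt :=
  pos (fun n => wdir (win n)) (fun n => Fw D w (win n)) (vec 0 0 0) n

theorem PP_succ (D : Desc) (w : List ℕ) (n : ℕ) : PP D w (n + 1) = smap D w (win n) (PP D w n) := rfl

theorem win_eq (j c : ℕ) (hc : c < 5) : win (5 * j + 1 + c) = 1 + c := by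
  unfold win; rw [if_neg (by omega)]; omega

theorem smap1 {D : Desc} {S : St} (w : List ℕ) (h : Bd D S) :
    smap D w 1 (vec (cx D S) 0 (cz D S)) = vec (cx D S) (cond (hlt D S.1) (5 / 8) (cy D S)) (cz D S) := by
  rw [smap, Fw1 w h]
  simp only [wdir, if_true]
  rw [vec_add1, zero_add]

theorem block {D : Desc} {w : List ℕ} {S : St} {j : ℕ} (h : Bd D S) (h' : Bd D (sstep D S))
    (hn : hlt D S.1 = false) (hP : PP D w (5 * j + 1) = vec (cx D S) 0 (cz D S)) :
    PP D w (5 * j + 2) 1 = 1 / 4 + cy D S ∧ PP D w (5 * j + 3) 1 = 1 / 4 + cy D S ∧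
    PP D w (5 * j + 4) 1 = 1 / 4 + cy D S ∧ PP D w (5 * j + 5) 1 = 1 / 4 + cy D S ∧
    PP D w (5 * (j + 1) + 1) = vec (cx D (sstep D S)) 0 (cz D (sstep D S)) := by
  have e2 : PP D w (5 * j + 2) = vec (cx D S) (cy D S) (cz D S) := by
    rw [PP_succ, hP, show win (5 * j + 1) = 1 from win_eq j 0 (by omega), smap1 w h, hn]; rfl
  have e3 : PP D w (5 * j + 3) = vec (cx D S) (cy D S) (cx D S) := by
    rw [PP_succ, e2, show win (5 * j + 2) = 2 from win_eq j 1 (by omega), smap2 w h]
  have e4 : PP D w (5 * j + 4) = vec (cx D (sstep D S)) (cy D S) (cx D S) := by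
    rw [PP_succ, e3, show win (5 * j + 3) = 3 from win_eq j 2 (by omega), smap3 w h]
  have e5 : PP D w (5 * j + 5) = vec (cx D (sstep D S)) (cy D S) (cz D (sstep D S)) := by
    rw [PP_succ, e4, show win (5 * j + 4) = 4 from win_eq j 3 (by omega), smap4 w h h']
  have e6 : PP D w (5 * j + 6) = vec (cx D (sstep D S)) 0 (cz D (sstep D S)) := by
    rw [PP_succ, e5, show win (5 * j + 5) = 5 from win_eq j 4 (by omega), smap5 w h h']
  exact ⟨by rw [e2]; rfl, by rw [e3]; rfl, by rw [e4]; rfl, by rw [e5]; rfl, e6⟩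

theorem PP_run {D : Desc} {w : List ℕ} (hb : ∀ j, Bd D ((sstep D)^[j] (sinit w))) (j : ℕ)
    (hn : ∀ i < j, hlt D ((sstep D)^[i] (sinit w)).1 = false) :
    PP D w (5 * j + 1) = vec (cx D ((sstep D)^[j] (sinit w))) 0 (cz D ((sstep D)^[j] (sinit w))) := by
  induction j with
  | zero =>
    have : PP D w 1 = smap D w 0 (vec 0 0 0) := rfl
    simp [this, smap0, cx, cz, sinit, enc]
  | succ j ih =>
    have h' := hb (j + 1)
    rw [Function.iterate_succ_apply'] at h' ⊢
    exact (block (hb j) h' (hn j (by omega)) (ih fun i hi => hn i (by omega))).2.2.2.2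

theorem PP_box {D : Desc} {w : List ℕ} (hb : ∀ j, Bd D ((sstep D)^[j] (sinit w)))
    (hn : ∀ i, hlt D ((sstep D)^[i] (sinit w)).1 = false) (n : ℕ) :
    1 / 4 ≤ PP D w n 1 ∧ PP D w n 1 ≤ 3 / 4 := by
  rcases Nat.eq_zero_or_pos n with rfl | h0
  · have : PP D w 0 1 = 1 / 4 + 0 := rfl
    rw [this]; norm_num
  obtain ⟨j, c, hc, rfl⟩ : ∃ j c, c < 5 ∧ n = 5 * j + 1 + c :=
    ⟨(n - 1) / 5, (n - 1) % 5, by omega, by omega⟩
  have h1 := PP_run hb j fun i _ => hn i
  have h' := hb (j + 1)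
  rw [Function.iterate_succ_apply'] at h'
  obtain ⟨b2, b3, b4, b5, -⟩ := block (hb j) h' (hn j) h1
  have hy := enc_bd (hb j).y
  change 0 ≤ cy D _ ∧ cy D _ ≤ 1 / 2 at hy
  have b1 : PP D w (5 * j + 1) 1 = 1 / 4 + 0 := by rw [h1]; rfl
  interval_cases c
  · rw [b1]; norm_num
  · rw [b2]; constructor <;> linarith [hy.1, hy.2]
  · rw [b3]; constructor <;> linarith [hy.1, hy.2]
  · rw [b4]; constructor <;> linarith [hy.1, hy.2]
  · rw [b5]; constructor <;> linarith [hy.1, hy.2]

theorem PP_halt {D : Desc} {w : List ℕ} (hb : ∀ j, Bd D ((sstep D)^[j] (sinit w)))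
    (hh : ∃ i, hlt D ((sstep D)^[i] (sinit w)).1 = true) : ∃ n, PP D w n 1 = 7 / 8 := by
  classical
  have h1 := PP_run hb (Nat.find hh) fun i hi => by simpa using Nat.find_min hh hi
  refine ⟨5 * Nat.find hh + 2, ?_⟩
  rw [PP_succ, h1, show win (5 * Nat.find hh + 1) = 1 from win_eq _ 0 (by omega), smap1 w (hb _),
    Nat.find_spec hh]
  change 1 / 4 + 5 / 8 = (7 / 8 : ℝ)
  norm_num

/-- the detecting open set -/
def target : Set (Fin 3 → UnitAddCircle) :=
  {y | y 1 ∈ (fun s : ℝ => (s : UnitAddCircle)) '' Ioo (3 / 4) 1}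

theorem isOpen_target : IsOpen target := by
  have h : IsOpen ((fun s : ℝ => (s : UnitAddCircle)) '' Ioo (3 / 4) 1) :=
    QuotientAddGroup.isOpenMap_coe (N := AddSubgroup.zmultiples (1 : ℝ)) _ isOpen_Ioo
  have h2 : Continuous fun y : Fin 3 → UnitAddCircle => y 1 := continuous_apply 1
  exact h.preimage h2

theorem detect (M : Machine) (w : List (Fin (M.m + 1))) {X : ℝ → Pt}
    (hX : IsTraj (vel (M.desc, w.map Fin.val)) (vec 0 0 0) X) :
    (∃ t : ℝ, 0 ≤ t ∧ proj (X t) ∈ target) ↔ M.Halts w := by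
  rw [vel_eq] at hX
  have hu := fun t (ht : 0 ≤ t) => traj_unique (fun n => Fw_update _ _ _) hX ht
  rw [halts_iff]
  constructor
  · rintro ⟨t, ht, s, hs, hst⟩
    by_contra hn
    push Not at hn
    have := traj_mem _ 1 (PP_box (bd_iter M w) fun i => by simpa using hn i) t
    rw [← hu t ht] at this
    have h2 : s = X t 1 := by
      refine (AddCircle.coe_eq_coe_iff_of_mem_Ico (p := (1 : ℝ)) (a := 0) ?_ ?_).1 hst
      · constructor <;> linarith [hs.1, hs.2]
      · constructor <;> linarith [this.1, this.2]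
    linarith [hs.1, this.2]
  · intro hh
    obtain ⟨n, hn⟩ := PP_halt (bd_iter M w) hh
    refine ⟨n, by positivity, 7 / 8, by constructor <;> norm_num, ?_⟩
    rw [hu n (by positivity), traj_nat]
    exact congrArg (fun s : ℝ => (s : UnitAddCircle)) hn.symm

theorem per_tot (a : Desc × List ℕ) (k : Fin 3) (t : ℝ) : Per (tot (uterm k) a t) := by
  intro x m
  simp only [tot, uterm, sep, prod_tg, pbas_per]

theorem sm_vel (a : Desc × List ℕ) (k : Fin 3) : Sm (tot (uterm k) a) := (ef_uterm k).tot.1 a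

theorem smooth_vel (a : Desc × List ℕ) : SmoothField (vel a) :=
  ⟨contDiff_pi.2 fun k => sm_vel a k, fun t k => per_tot a k t⟩

theorem smooth_force {ν : ℝ} (hν : ComputableReal ν) (a : Desc × List ℕ) :
    SmoothField (force ν a) := by
  refine ⟨contDiff_pi.2 fun k => (ef_fterm hν k).tot.1 a, fun t k x m => ?_⟩
  simp only [force_eq, Dt, Dx, fun s => per_tot a k s x m,
    fun j => ((per_tot a k t).dx j).dx j x m]

theorem Sm.cont {F : ST} (h : Sm F) (T : ℝ) : Cont T F := h.continuous.continuousOn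

theorem Sm.diffX {F : ST} (h : Sm F) (i : Fin 3) (t : ℝ) : DiffX i (F t) :=
  fun x => (h.hasDerivAt_x i t x).differentiableAt

theorem classical_vel (ν : ℝ) (a : Desc × List ℕ) {T : ℝ} (hT : 0 < T) :
    IsClassical ν (force ν a) T (vel a) (fun _ _ => 0) := by
  have hs := sm_vel a
  have hd : ∀ t ∈ Icc 0 T, ∀ x k, derivWithin (fun s => vel a s x k) (Icc 0 T) t
      = Dt (tot (uterm k) a) t x := fun t ht x k =>
    ((hs k).hasDerivAt_t t x).differentiableAt.derivWithin (uniqueDiffOn_Icc hT t ht)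
  have z : ∀ i, dx i (fun _ => (0 : ℝ)) = fun _ => 0 := fun i => by funext x; simp [dx]
  refine
    { per_u := fun t _ k => per_tot a k t
      per_p := fun _ _ _ _ => rfl
      diff_t := fun t _ x k => ((hs k).hasDerivAt_t t x).differentiableAt.differentiableWithinAt
      diff_x := fun t _ k i => (hs k).diffX i t
      diff_xx := fun t _ k i j => ((hs k).Dx i).diffX j t
      diff_p := fun _ _ _ _ => differentiableAt_const _
      cont_u := fun k => (hs k).cont T
      cont_ut := fun k => (((hs k).Dt).cont T).congr fun z hz => hd z.1 hz.1 z.2 k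
      cont_ux := fun k i => ((hs k).Dx i).cont T
      cont_uxx := fun k i j => (((hs k).Dx i).Dx j).cont T
      cont_p := continuousOn_const
      cont_px := fun i => by simp only [z]; exact continuousOn_const
      mean_p := fun _ _ => by simp
      momentum := fun t ht x k => ?_
      div_free := fun t _ x => ?_
      rest := fun x => ?_ }
  · have h1 : ∑ j, vel a t x j * dx j (fun y => vel a t y k) x = 0 := by
      obtain ⟨D, w⟩ := a
      rw [vel_eq]; exact shear_convect (fun n => Fw_update _ _ _) t k x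
    rw [hd t ht, h1, z, force_eq]
    change _ = -0 + ν * ∑ j, Dx j (Dx j (tot (uterm k) a)) t x + _
    ring
  · obtain ⟨D, w⟩ := a
    rw [vel_eq]; exact shear_div (fun n => Fw_update _ _ _) t x
  · obtain ⟨D, w⟩ := a
    rw [vel_eq]; exact shear_zero x

theorem win_add {t : ℝ} (ht : 1 ≤ t) : win ⌊t + 5⌋.toNat = win ⌊t⌋.toNat ∧ win ⌊t⌋.toNat ≠ 0 := by
  have h1 : ⌊t + 5⌋ = ⌊t⌋ + 5 := by exact_mod_cast Int.floor_add_natCast t 5
  have h2 : 1 ≤ ⌊t⌋ := Int.le_floor.2 (by exact_mod_cast ht)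
  rw [h1]
  unfold win
  constructor
  · rw [if_neg (by omega), if_neg (by omega)]; omega
  · rw [if_neg (by omega)]; omega

theorem patch_win_add (r : ℕ) (p : ℝ → ℝ) {t : ℝ} (ht : 1 ≤ t) :
    patch (fun n => Nat.beq (win n) r) p (t + 5) = patch (fun n => Nat.beq (win n) r) p t := by
  have h1 : Int.fract (t + 5) = Int.fract t := by exact_mod_cast Int.fract_add_natCast t 5
  simp only [patch, (win_add ht).1, h1]

theorem patch_win_zero (p : ℝ → ℝ) {t : ℝ} (ht : 1 ≤ t) :
    patch (fun n => Nat.beq (win n) 0) p t = 0 := by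
  have : Nat.beq (win ⌊t⌋.toNat) 0 = false := by
    rw [Bool.eq_false_iff]; simpa using (win_add ht).2
  simp only [patch, this, cond_false]

theorem force_periodic (ν : ℝ) (a : Desc × List ℕ) {t : ℝ} (ht : 1 ≤ t) :
    force ν a (t + 5) = force ν a t := by
  funext x k
  simp only [force, tot, fterm, sep, tau, deriv_patch _ supp_theta, patch_win_add _ _ ht]

theorem force_indep (ν : ℝ) (D : Desc) (w w' : List ℕ) {t : ℝ} (ht : 1 ≤ t) :
    force ν (D, w) t = force ν (D, w') t := by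
  funext x k
  simp only [force, tot]
  refine Finset.sum_congr rfl fun r _ => Finset.sum_congr rfl fun j₁ _ =>
    Finset.sum_congr rfl fun j₂ _ => Finset.sum_congr rfl fun e _ => ?_
  by_cases hr : r = 0
  · subst hr
    simp [fterm, sep, tau, deriv_patch _ supp_theta, patch_win_zero _ ht]
  · have h1 : tc k (((((D, w), r), j₁), j₂), e) = tc k (((((D, w'), r), j₁), j₂), e) := by
      simp only [tc, co, hr, if_false]
    have h2 : tg k (((((D, w), r), j₁), j₂), e) = tg k (((((D, w'), r), j₁), j₂), e) := rfl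
    simp only [fterm, tg2, h1, h2]

theorem code_of_computable {α β γ : Type} [Primcodable α] [Primcodable β] [Primcodable γ]
    {H : α × β → γ} (hH : Computable H) :
    ∃ C : α → Nat.Partrec.Code, Computable C ∧
      ∀ a b, Encodable.encode (H (a, b)) ∈ (C a).eval (Encodable.encode b) := by
  obtain ⟨c, hc⟩ := Nat.Partrec.Code.exists_code.1 hH
  refine ⟨fun a => Nat.Partrec.Code.curry c (Encodable.encode a),
    Nat.Partrec.Code.primrec₂_curry.to_comp.comp (Computable.const c) Computable.encode,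
    fun a b => ?_⟩
  rw [Nat.Partrec.Code.eval_curry, hc]
  simp

theorem combine3 {α : Type} [Primcodable α] {G : Fin 3 → (α × Inp) × Q → Q}
    (hG : ∀ k, Computable (G k)) :
    ∃ H : α × (ℕ × ℕ × ℕ × ℕ) × ℕ × Q × (Q × Q × Q) × Q → Q,
      Computable H ∧ ∀ a mi (k : Fin 3) t x ε, H (a, mi, (k : ℕ), t, x, ε)
        = G k ((a, mi, t, x), ε) := by
  obtain ⟨A, hA, eA⟩ : ∃ A : α × (ℕ × ℕ × ℕ × ℕ) × ℕ × Q × (Q × Q × Q) × Q → (α × Inp) × Q,
      Computable A ∧ ∀ z, A z = ((z.1, z.2.1, z.2.2.2.1, z.2.2.2.2.1), z.2.2.2.2.2) :=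
    ⟨_, by fun_prop, fun _ => rfl⟩
  refine ⟨fun z => if z.2.2.1 = 0 then G 0 (A z) else if z.2.2.1 = 1 then G 1 (A z) else G 2 (A z),
    ?_, fun a mi k t x ε => ?_⟩
  · exact c_ite_eq (by fun_prop) (by fun_prop) ((hG 0).comp hA)
      (c_ite_eq (by fun_prop) (by fun_prop) ((hG 1).comp hA) ((hG 2).comp hA))
  · fin_cases k <;> simp [eA]

theorem exists_compiler {ν : ℝ} (hν : ComputableReal ν) :
    ∃ C : Desc × List ℕ → Nat.Partrec.Code, Computable C ∧ ∀ a, Effective (C a) (force ν a) := by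
  choose G hG hG' using fun k : Fin 3 => (ef_fterm hν k).tot.2.normal'
  obtain ⟨H, hH, eH⟩ := combine3 hG
  obtain ⟨C, hC, hC'⟩ := code_of_computable hH
  refine ⟨C, hC, fun a mi k t x ε _ hε => ⟨G k ((a, mi, t, x), ε), ?_, hG' k (a, mi, t, x) ε hε⟩⟩
  rw [← eH]
  exact hC' a (mi, (k : ℕ), t, x, ε)

end Vale.Agent.P113
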