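import Vale.Agent.P113.Sep

/-! Trajectories of successive shear flows. -/

namespace Vale.Agent.P113

open Filter Topology Real Set

variable (κ : ℕ → Fin 3) (Φ : ℕ → Pt → ℝ)

/-- positions at integer times -/
noncomputable def pos (a : Pt) : ℕ → Pt
  | 0 => a
  | n + 1 => pos a n + Φ n (pos a n) • (Pi.single (κ n) 1 : Pt)

/-- the shear velocity field -/
noncomputable def shear (t : ℝ) (x : Pt) : Pt :=
  (theta (Int.fract t) * Φ ⌊t⌋.toNat x) • (Pi.single (κ ⌊t⌋.toNat) 1 : Pt)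

noncomputable def seg (a : Pt) (n : ℕ) (t : ℝ) : Pt :=
  pos κ Φ a n + (Theta (t - n) * Φ n (pos κ Φ a n)) • (Pi.single (κ n) 1 : Pt)

noncomputable def traj (a : Pt) (t : ℝ) : Pt := seg κ Φ a ⌊t⌋.toNat t

variable {κ Φ}

theorem floor_toNat {t : ℝ} (ht : 0 ≤ t) : ((⌊t⌋.toNat : ℕ) : ℝ) = (⌊t⌋ : ℝ) := by
  have : ((⌊t⌋.toNat : ℕ) : ℤ) = ⌊t⌋ := Int.toNat_of_nonneg (Int.floor_nonneg.2 ht)
  exact_mod_cast congrArg (fun z : ℤ => (z : ℝ)) this

theorem floor_toNat_eq {t : ℝ} {n : ℕ} (h1 : (n : ℝ) ≤ t) (h2 : t < n + 1) : ⌊t⌋.toNat = n := by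
  have : ⌊t⌋ = (n : ℤ) := Int.floor_eq_iff.2 ⟨by exact_mod_cast h1, by exact_mod_cast h2⟩
  simp [this]

theorem Phi_add (hΦ : ∀ n x s, Φ n (Function.update x (κ n) s) = Φ n x) (n : ℕ) (x : Pt) (c : ℝ) :
    Φ n (x + c • (Pi.single (κ n) 1 : Pt)) = Φ n x := by
  rw [← hΦ n x (x (κ n) + c)]
  congr 1
  funext i
  by_cases h : i = κ n
  · subst h; simp
  · simp [Function.update_of_ne h, Pi.single_eq_of_ne h]

theorem shear_eq {t : ℝ} {n : ℕ} (h1 : (n : ℝ) ≤ t) (h2 : t < n + 1) (x : Pt) :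
    shear κ Φ t x = (theta (t - n) * Φ n x) • (Pi.single (κ n) 1 : Pt) := by
  have h0 : 0 ≤ t := le_trans (by positivity) h1
  have h3 := floor_toNat h0
  rw [floor_toNat_eq h1 h2] at h3
  rw [shear, floor_toNat_eq h1 h2, Int.fract, ← h3]

theorem hasDerivAt_seg (a : Pt) (n : ℕ) (t : ℝ) :
    HasDerivAt (seg κ Φ a n) ((theta (t - n) * Φ n (pos κ Φ a n)) • (Pi.single (κ n) 1 : Pt)) t := by
  have h1 : HasDerivAt (fun s : ℝ => Theta (s - n)) (theta (t - n)) t :=
    (hasDerivAt_Theta (t - n)).comp_sub_const t n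
  exact ((h1.mul_const _).smul_const _).const_add _

theorem seg_start (a : Pt) (n : ℕ) {t : ℝ} (h : t ≤ n + 1 / 4) : seg κ Φ a n t = pos κ Φ a n := by
  simp [seg, Theta_zero (show t - n ≤ 1 / 4 by linarith)]

theorem seg_end (a : Pt) (n : ℕ) {t : ℝ} (h : n + 3 / 4 ≤ t) :
    seg κ Φ a n t = pos κ Φ a (n + 1) := by
  simp [seg, pos, Theta_one (show 3 / 4 ≤ t - n by linarith)]

theorem isTraj_traj (hΦ : ∀ n x s, Φ n (Function.update x (κ n) s) = Φ n x) (a : Pt) :
    IsTraj (shear κ Φ) a (traj κ Φ a) := by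
  refine ⟨by simp [traj, seg_start, pos], fun t ht => ?_⟩
  obtain ⟨n, hn⟩ : ∃ n : ℕ, ⌊t⌋.toNat = n := ⟨_, rfl⟩
  have h0 := floor_toNat ht
  rw [hn] at h0
  have h1 : (n : ℝ) ≤ t := h0 ▸ Int.floor_le t
  have h2 : t < n + 1 := h0 ▸ Int.lt_floor_add_one t
  have h3 : traj κ Φ a =ᶠ[𝓝[Ici 0] t] seg κ Φ a n := by
    filter_upwards [self_mem_nhdsWithin, mem_nhdsWithin_of_mem_nhds
      (Ioo_mem_nhds (show (n : ℝ) - 1 / 4 < t by linarith) h2)] with s hs0 hs
    by_cases h : (n : ℝ) ≤ s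
    · rw [traj, floor_toNat_eq h hs.2]
    · push Not at h
      obtain ⟨m, rfl⟩ : ∃ m, n = m + 1 := by
        refine Nat.exists_eq_succ_of_ne_zero ?_
        rintro rfl
        simp only [Nat.cast_zero] at h
        exact absurd hs0 (not_le.2 h)
      have h4 := hs.1
      push_cast at h h4
      rw [traj, floor_toNat_eq (n := m) (by linarith) h, seg_end _ _ (by linarith),
        seg_start _ _ (by push_cast; linarith)]
  have h4 : traj κ Φ a t = seg κ Φ a n t := by rw [traj, hn]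
  refine ((hasDerivAt_seg (κ := κ) (Φ := Φ) a n t).hasDerivWithinAt.congr_of_eventuallyEq h3
    h4).congr_deriv ?_
  rw [shear_eq h1 h2, h4, seg, Phi_add hΦ]

theorem traj_unique (hΦ : ∀ n x s, Φ n (Function.update x (κ n) s) = Φ n x) {a : Pt} {X : ℝ → Pt}
    (hX : IsTraj (shear κ Φ) a X) {t : ℝ} (ht : 0 ≤ t) : X t = traj κ Φ a t := by
  have step : ∀ n : ℕ, X n = pos κ Φ a n → ∀ s ∈ Icc (n : ℝ) (n + 1), X s = seg κ Φ a n s := by
    intro n hn
    have n0 : (0 : ℝ) ≤ n := by positivity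
    have cX : ContinuousOn X (Icc (n : ℝ) (n + 1)) := fun s hs =>
      (hX.2 s (n0.trans hs.1)).continuousWithinAt.mono fun r hr => n0.trans hr.1
    have dX : ∀ s ∈ Ico (n : ℝ) (n + 1), HasDerivWithinAt X
        ((theta (s - n) * Φ n (X s)) • (Pi.single (κ n) 1 : Pt)) (Ici s) s := fun s hs => by
      rw [← shear_eq hs.1 hs.2]
      exact (hX.2 s (n0.trans hs.1)).mono fun r hr => (n0.trans hs.1).trans hr
    have h1 : ∀ i, i ≠ κ n → ∀ s ∈ Icc (n : ℝ) (n + 1), X s i = X n i := fun i hi =>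
      constant_of_has_deriv_right_zero ((continuous_apply i).comp_continuousOn cX) fun s hs => by
        simpa [Pi.single_eq_of_ne hi] using hasDerivWithinAt_pi.1 (dX s hs) i
    have h2 : ∀ s ∈ Icc (n : ℝ) (n + 1), Φ n (X s) = Φ n (pos κ Φ a n) := fun s hs => by
      rw [← hΦ n (pos κ Φ a n) (X s (κ n))]
      congr 1
      funext i
      by_cases h : i = κ n
      · subst h; simp
      · rw [Function.update_of_ne h, h1 i h s hs, hn]
    have h3 := constant_of_has_deriv_right_zero (f := fun s => X s - seg κ Φ a n s)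
      (cX.sub fun s _ => (hasDerivAt_seg a n s).continuousAt.continuousWithinAt) fun s hs => by
        have := (dX s hs).fun_sub (hasDerivAt_seg (κ := κ) (Φ := Φ) a n s).hasDerivWithinAt
        rwa [h2 s (Ico_subset_Icc_self hs), sub_self] at this
    intro s hs
    have := h3 s hs
    rw [seg_start a n (t := n) (by linarith), hn, sub_self] at this
    exact sub_eq_zero.1 this
  have int : ∀ n : ℕ, X n = pos κ Φ a n := by
    intro n
    induction n with
    | zero => simpa [pos] using hX.1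
    | succ n ih =>
      push_cast
      rw [step n ih _ ⟨by linarith, le_rfl⟩, seg_end _ _ (by linarith)]
  have h0 := floor_toNat ht
  exact step _ (int _) t ⟨h0 ▸ Int.floor_le t, h0 ▸ (Int.lt_floor_add_one t).le⟩

theorem traj_nat (a : Pt) (n : ℕ) : traj κ Φ a n = pos κ Φ a n := by
  rw [traj, seg_start]
  · simp
  · simp

/-- a trajectory stays in the box as long as its integer-time positions do -/
theorem traj_mem (a : Pt) {lo hi : ℝ} (i : Fin 3)
    (h : ∀ n, lo ≤ pos κ Φ a n i ∧ pos κ Φ a n i ≤ hi) (t : ℝ) :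
    lo ≤ traj κ Φ a t i ∧ traj κ Φ a t i ≤ hi := by
  obtain ⟨n, hn⟩ : ∃ n : ℕ, ⌊t⌋.toNat = n := ⟨_, rfl⟩
  have h1 := h n
  have h2 := h (n + 1)
  have h3 := Theta_mem (t - n)
  simp only [traj, hn, seg, pos, Pi.add_apply, Pi.smul_apply, smul_eq_mul] at h2 ⊢
  constructor <;> nlinarith [h1.1, h1.2, h2.1, h2.2, h3.1, h3.2]

/-! The shear field has no convective term and no divergence. -/

theorem dx_shear_dir (hΦ : ∀ n x s, Φ n (Function.update x (κ n) s) = Φ n x) (t : ℝ) (k : Fin 3)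
    (x : Pt) : dx (κ ⌊t⌋.toNat) (fun y => shear κ Φ t y k) x = 0 := by
  simp [dx, shear, hΦ]

theorem shear_convect (hΦ : ∀ n x s, Φ n (Function.update x (κ n) s) = Φ n x) (t : ℝ) (k : Fin 3)
    (x : Pt) : ∑ j, shear κ Φ t x j * dx j (fun y => shear κ Φ t y k) x = 0 := by
  refine Finset.sum_eq_zero fun j _ => ?_
  by_cases h : j = κ ⌊t⌋.toNat
  · rw [h, dx_shear_dir hΦ, mul_zero]
  · simp [shear, Pi.single_eq_of_ne h]

theorem shear_div (hΦ : ∀ n x s, Φ n (Function.update x (κ n) s) = Φ n x) (t : ℝ)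
    (x : Pt) : ∑ j, dx j (fun y => shear κ Φ t y j) x = 0 := by
  refine Finset.sum_eq_zero fun j _ => ?_
  by_cases h : j = κ ⌊t⌋.toNat
  · rw [h, dx_shear_dir hΦ]
  · simp [dx, shear, Pi.single_eq_of_ne h]

theorem shear_zero (x : Pt) : shear κ Φ 0 x = 0 := by
  simp [shear, supp_theta 0 (Or.inl (by norm_num))]

end Vale.Agent.P113
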