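import Vale.Agent.P113.ES

/-! Finite sums of separable space-time functions and their mixed derivatives. -/

namespace Vale.Agent.P113

open Filter Topology Real Set

abbrev ST : Type := ℝ → Pt → ℝ

def Sm (F : ST) : Prop := ContDiff ℝ (⊤ : ℕ∞) (fun z : ℝ × Pt => F z.1 z.2)

noncomputable def Dv (v : ℝ × Pt) (F : ST) : ST :=
  fun t x => fderiv ℝ (fun z : ℝ × Pt => F z.1 z.2) (t, x) v

theorem Sm.hasDerivAt_t {F : ST} (h : Sm F) (t : ℝ) (x : Pt) :
    HasDerivAt (fun s => F s x) (Dv (1, 0) F t x) t := by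
  have h1 : HasDerivAt (fun s : ℝ => ((s, x) : ℝ × Pt)) (1, 0) t :=
    (hasDerivAt_id t).prodMk (hasDerivAt_const t x)
  exact ((h.differentiable (by simp) (t, x)).hasFDerivAt.comp_hasDerivAt t h1)

theorem hasDerivAt_update' (x : Pt) (i : Fin 3) (s : ℝ) :
    HasDerivAt (fun s : ℝ => Function.update x i s) (Pi.single i 1) s := hasDerivAt_update x i s

theorem Sm.hasDerivAt_x {F : ST} (h : Sm F) (i : Fin 3) (t : ℝ) (x : Pt) :
    HasDerivAt (fun s => F t (Function.update x i s)) (Dv (0, Pi.single i 1) F t x) (x i) := by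
  have h1 : HasDerivAt (fun s : ℝ => ((t, Function.update x i s) : ℝ × Pt)) (0, Pi.single i 1)
      (x i) := (hasDerivAt_const _ t).prodMk (hasDerivAt_update' x i _)
  have h2 := (h.differentiable (by simp) (t, x)).hasFDerivAt
  have h3 : (t, x) = (fun s : ℝ => ((t, Function.update x i s) : ℝ × Pt)) (x i) := by simp
  have h4 : HasFDerivAt (fun z : ℝ × Pt => F z.1 z.2)
      (fderiv ℝ (fun z : ℝ × Pt => F z.1 z.2) (t, x))
      ((fun s : ℝ => ((t, Function.update x i s) : ℝ × Pt)) (x i)) := h3 ▸ h2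
  exact h4.comp_hasDerivAt (x i) h1

theorem Sm.Dt_eq {F : ST} (h : Sm F) : Dt F = Dv (1, 0) F := by
  funext t x; exact (h.hasDerivAt_t t x).deriv

theorem Sm.Dx_eq {F : ST} (h : Sm F) (i : Fin 3) : Dx i F = Dv (0, Pi.single i 1) F := by
  funext t x; exact (h.hasDerivAt_x i t x).deriv

theorem Sm.Dv {F : ST} (h : Sm F) (v : ℝ × Pt) : Sm (Dv v F) := by
  have h1 : ContDiff ℝ (⊤ : ℕ∞) (fderiv ℝ (fun z : ℝ × Pt => F z.1 z.2)) :=
    h.fderiv_right (m := (⊤ : ℕ∞)) (by simp)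
  exact h1.clm_apply contDiff_const

theorem Sm.Dt {F : ST} (h : Sm F) : Sm (Dt F) := h.Dt_eq ▸ h.Dv _
theorem Sm.Dx {F : ST} (h : Sm F) (i : Fin 3) : Sm (Dx i F) := (h.Dx_eq i) ▸ h.Dv _

theorem Sm.sum {ι : Type} {s : Finset ι} {F : ι → ST} (h : ∀ i, Sm (F i)) :
    Sm (fun t x => ∑ i ∈ s, F i t x) := ContDiff.sum fun i _ => h i

/-- operators preserving smoothness and finite sums of smooth functions -/
def Good (L : ST → ST) : Prop :=
  (∀ F, Sm F → Sm (L F)) ∧ ∀ (ι : Type) (s : Finset ι) (F : ι → ST), (∀ i, Sm (F i)) →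
    L (fun t x => ∑ i ∈ s, F i t x) = fun t x => ∑ i ∈ s, L (F i) t x

theorem good_Dv (v : ℝ × Pt) : Good (Dv v) := by
  refine ⟨fun F h => h.Dv v, fun ι s F h => ?_⟩
  funext t x
  simp only [Dv]
  rw [fderiv_fun_sum fun i _ => (h i).differentiable (by simp) (t, x)]
  simp

theorem good_Dt : Good Dt := by
  refine ⟨fun F h => h.Dt, fun ι s F h => ?_⟩
  rw [(Sm.sum h).Dt_eq, (good_Dv _).2 ι s F h]
  simp only [fun i => (h i).Dt_eq]

theorem good_Dx (j : Fin 3) : Good (Dx j) := by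
  refine ⟨fun F h => h.Dx j, fun ι s F h => ?_⟩
  rw [(Sm.sum h).Dx_eq, (good_Dv _).2 ι s F h]
  simp only [fun i => (h i).Dx_eq]

theorem Good.comp {L L' : ST → ST} (h : Good L) (h' : Good L') : Good (fun F => L (L' F)) :=
  ⟨fun F hF => h.1 _ (h'.1 _ hF), fun ι s F hF => by
    dsimp only
    rw [h'.2 ι s F hF, h.2 ι s _ fun i => h'.1 _ (hF i)]⟩

theorem Good.iterate {L : ST → ST} (h : Good L) (n : ℕ) : Good L^[n] := by
  induction n with
  | zero => exact ⟨fun F hF => hF, fun _ _ _ _ => rfl⟩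
  | succ n ih => exact ih.comp h

theorem good_mixed (a : ℕ × ℕ × ℕ × ℕ) : Good (mixed a) :=
  (good_Dt.iterate _).comp (((good_Dx 0).iterate _).comp
    (((good_Dx 1).iterate _).comp ((good_Dx 2).iterate _)))

/-- separable functions -/
def sep (c : ℝ) (g₀ : ℝ → ℝ) (g : Fin 3 → ℝ → ℝ) : ST := fun t x => c * g₀ t * ∏ i, g i (x i)

theorem sm_sep (c : ℝ) {g₀ : ℝ → ℝ} {g : Fin 3 → ℝ → ℝ} (h₀ : ContDiff ℝ (⊤ : ℕ∞) g₀)
    (h : ∀ i, ContDiff ℝ (⊤ : ℕ∞) (g i)) : Sm (sep c g₀ g) :=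
  (contDiff_const.mul (h₀.comp contDiff_fst)).mul
    (contDiff_prod fun i _ => (h i).comp ((contDiff_apply ℝ ℝ i).comp contDiff_snd))

theorem Dt_sep (c : ℝ) (g₀ : ℝ → ℝ) (g : Fin 3 → ℝ → ℝ) :
    Dt (sep c g₀ g) = sep c (deriv g₀) g := by
  funext t x
  simp only [Dt, sep]
  rw [deriv_mul_const_field, deriv_const_mul_field]

theorem Dx_sep (j : Fin 3) (c : ℝ) (g₀ : ℝ → ℝ) (g : Fin 3 → ℝ → ℝ) :
    Dx j (sep c g₀ g) = sep c g₀ (Function.update g j (deriv (g j))) := by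
  funext t x
  simp only [Dx, dx, sep]
  have h1 : ∀ s, ∏ i, g i (Function.update x j s i)
      = g j s * ∏ i ∈ Finset.univ.erase j, g i (x i) := by
    intro s
    rw [← Finset.mul_prod_erase _ _ (Finset.mem_univ j)]
    congr 1
    · simp
    · exact Finset.prod_congr rfl fun i hi => by
        rw [Function.update_of_ne (Finset.ne_of_mem_erase hi)]
  have h2 : ∏ i, Function.update g j (deriv (g j)) i (x i)
      = deriv (g j) (x j) * ∏ i ∈ Finset.univ.erase j, g i (x i) := by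
    rw [← Finset.mul_prod_erase _ _ (Finset.mem_univ j)]
    congr 1
    · simp
    · exact Finset.prod_congr rfl fun i hi => by
        rw [Function.update_of_ne (Finset.ne_of_mem_erase hi)]
  simp only [h1, h2]
  rw [deriv_const_mul_field, deriv_mul_const_field]

theorem Dt_iter_sep (n : ℕ) (c : ℝ) (g₀ : ℝ → ℝ) (g : Fin 3 → ℝ → ℝ) :
    Dt^[n] (sep c g₀ g) = sep c (iteratedDeriv n g₀) g := by
  induction n with
  | zero => simp
  | succ n ih => rw [Function.iterate_succ_apply', ih, Dt_sep, iteratedDeriv_succ]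

theorem Dx_iter_sep (n : ℕ) (j : Fin 3) (c : ℝ) (g₀ : ℝ → ℝ) (g : Fin 3 → ℝ → ℝ) :
    (Dx j)^[n] (sep c g₀ g) = sep c g₀ (Function.update g j (iteratedDeriv n (g j))) := by
  induction n with
  | zero => simp
  | succ n ih => rw [Function.iterate_succ_apply', ih, Dx_sep, iteratedDeriv_succ]; simp

theorem mixed_sep (a : ℕ × ℕ × ℕ × ℕ) (c : ℝ) (g₀ : ℝ → ℝ) (g : Fin 3 → ℝ → ℝ) (t : ℝ) (x : Pt) :
    mixed a (sep c g₀ g) t x = c * iteratedDeriv a.1 g₀ t * (iteratedDeriv a.2.1 (g 0) (x 0) *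
      iteratedDeriv a.2.2.1 (g 1) (x 1) * iteratedDeriv a.2.2.2 (g 2) (x 2)) := by
  rw [mixed, Dx_iter_sep, Dx_iter_sep, Dx_iter_sep, Dt_iter_sep]
  simp [sep, Fin.prod_univ_three]

/-- the inputs of the approximating program -/
abbrev Inp : Type := (ℕ × ℕ × ℕ × ℕ) × Q × Q × Q × Q

/-- effectively smooth space-time families -/
def EF {α : Type} [Primcodable α] (F : α → ST) : Prop :=
  (∀ a, Sm (F a)) ∧ CR (fun z : α × Inp =>
    mixed z.2.1 (F z.1) (qv z.2.2.1) ![qv z.2.2.2.1, qv z.2.2.2.2.1, qv z.2.2.2.2.2])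

variable {α β : Type} [Primcodable α] [Primcodable β]

theorem EF.of_eq {F G : α → ST} (h : EF F) (H : ∀ a t x, F a t x = G a t x) : EF G :=
  (funext fun a => funext fun t => funext (H a t) : F = G) ▸ h

theorem EF.sep {c : α → ℝ} {g₀ : α → ℝ → ℝ} {g : α → Fin 3 → ℝ → ℝ} (hc : CR c) (h₀ : ES g₀)
    (h : ∀ i, ES fun a => g a i) : EF (fun a => sep (c a) (g₀ a) (g a)) := by
  refine ⟨fun a => sm_sep _ (h₀.1 a) fun i => (h i).1 a, ?_⟩
  have e0 := h₀.2.comp (f := fun z : α × Inp => (z.1, z.2.1.1, z.2.2.1)) (by fun_prop)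
  have e1 := (h 0).2.comp (f := fun z : α × Inp => (z.1, z.2.1.2.1, z.2.2.2.1)) (by fun_prop)
  have e2 := (h 1).2.comp (f := fun z : α × Inp => (z.1, z.2.1.2.2.1, z.2.2.2.2.1)) (by fun_prop)
  have e3 := (h 2).2.comp (f := fun z : α × Inp => (z.1, z.2.1.2.2.2, z.2.2.2.2.2)) (by fun_prop)
  have ec := hc.comp (f := fun z : α × Inp => z.1) (by fun_prop)
  refine ((ec.mul e0).mul ((e1.mul e2).mul e3)).of_eq fun z => ?_
  rw [mixed_sep]; rfl

theorem EF.sum {F : α × ℕ → ST} {n : α → ℕ} (h : EF F) (hn : Computable n) :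
    EF (fun a t x => ∑ i ∈ Finset.range (n a), F (a, i) t x) := by
  refine ⟨fun a => Sm.sum fun i => h.1 (a, i), ?_⟩
  have e := h.2.comp (f := fun w : (α × Inp) × ℕ => ((w.1.1, w.2), w.1.2)) (by fun_prop)
  refine (CR.sum (n := fun z : α × Inp => n z.1) e (by fun_prop)).of_eq fun z => ?_
  rw [(good_mixed _).2 ℕ (Finset.range (n z.1)) (fun i => F (z.1, i)) fun i => h.1 (z.1, i)]

theorem EF.add {F G : α → ST} (h : EF F) (h' : EF G) :
    EF (fun a t x => F a t x + G a t x) := by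
  refine ⟨fun a => (h.1 a).add (h'.1 a), (h.2.add h'.2).of_eq fun z => ?_⟩
  have := (good_mixed z.2.1).2 Bool Finset.univ (fun b => cond b (F z.1) (G z.1))
    (fun b => by cases b; exacts [h'.1 _, h.1 _])
  simp only [Fintype.univ_bool, Finset.mem_singleton, Bool.true_eq_false, not_false_eq_true,
    Finset.sum_insert, cond_true, Finset.sum_singleton, cond_false] at this
  rw [this]

end Vale.Agent.P113
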