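import Vale.Agent.P113.CR

/-! All derivatives of the smooth transition function are computable at rational points. -/

namespace Vale.Agent.P113

open Filter Topology Real Set

attribute [fun_prop] Primrec

section
variable {α β γ σ : Type} [Primcodable α] [Primcodable β] [Primcodable γ] [Primcodable σ]
@[fun_prop] theorem p_id : Primrec (fun a : α => a) := Primrec.id
@[fun_prop] theorem p_const (s : σ) : Primrec (fun _ : α => s) := Primrec.const s
@[fun_prop] theorem p_comp {f : β → σ} {g : α → β} (hf : Primrec f) (hg : Primrec g) :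
    Primrec (fun a => f (g a)) := hf.comp hg
@[fun_prop] theorem p_pair {f : α → β} {g : α → γ} (hf : Primrec f) (hg : Primrec g) :
    Primrec (fun a => (f a, g a)) := hf.pair hg
@[fun_prop] theorem p_fst {f : α → β × γ} (hf : Primrec f) :
    Primrec (fun a => (f a).1) := Primrec.fst.comp hf
@[fun_prop] theorem p_snd {f : α → β × γ} (hf : Primrec f) :
    Primrec (fun a => (f a).2) := Primrec.snd.comp hf
@[fun_prop] theorem p_add {f g : α → ℕ} (hf : Primrec f) (hg : Primrec g) :
    Primrec (fun a => f a + g a) := Primrec.nat_add.comp hf hg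
@[fun_prop] theorem p_sub {f g : α → ℕ} (hf : Primrec f) (hg : Primrec g) :
    Primrec (fun a => f a - g a) := Primrec.nat_sub.comp hf hg
@[fun_prop] theorem p_mul {f g : α → ℕ} (hf : Primrec f) (hg : Primrec g) :
    Primrec (fun a => f a * g a) := Primrec.nat_mul.comp hf hg
@[fun_prop] theorem p_cons {f : α → β} {g : α → List β} (hf : Primrec f) (hg : Primrec g) :
    Primrec (fun a => f a :: g a) := Primrec.list_cons.comp hf hg
@[fun_prop] theorem p_qnat {f : α → ℕ} (hf : Primrec f) : Primrec (fun a => qnat (f a)) := by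
  unfold qnat; fun_prop
@[fun_prop] theorem p_qadd {f g : α → Q} (hf : Primrec f) (hg : Primrec g) :
    Primrec (fun a => qadd (f a) (g a)) := by unfold qadd; fun_prop
@[fun_prop] theorem p_qmul {f g : α → Q} (hf : Primrec f) (hg : Primrec g) :
    Primrec (fun a => qmul (f a) (g a)) := by unfold qmul; fun_prop
@[fun_prop] theorem p_qneg {f : α → Q} (hf : Primrec f) : Primrec (fun a => qneg (f a)) := by
  unfold qneg; fun_prop
@[fun_prop] theorem p_qinv {f : α → Q} (hf : Primrec f) : Primrec (fun a => qinv (f a)) := by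
  unfold qinv; fun_prop
end

/-- monomials `c A^i U^j V^k` -/
abbrev Mono : Type := Q × ℕ × ℕ × ℕ

noncomputable def mval (μ : Mono) (t : ℝ) : ℝ :=
  qv μ.1 * (smoothTransition t ^ μ.2.1 * (t⁻¹ ^ μ.2.2.1 * (1 - t)⁻¹ ^ μ.2.2.2))

def mder (μ : Mono) : List Mono :=
  [(qmul μ.1 (qnat μ.2.1), μ.2.1, μ.2.2.1 + 2, μ.2.2.2),
   (qmul μ.1 (qnat μ.2.1), μ.2.1, μ.2.2.1, μ.2.2.2 + 2),
   (qneg (qmul μ.1 (qnat μ.2.1)), μ.2.1 + 1, μ.2.2.1 + 2, μ.2.2.2),
   (qneg (qmul μ.1 (qnat μ.2.1)), μ.2.1 + 1, μ.2.2.1, μ.2.2.2 + 2),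
   (qneg (qmul μ.1 (qnat μ.2.2.1)), μ.2.1, μ.2.2.1 + 1, μ.2.2.2),
   (qmul μ.1 (qnat μ.2.2.2), μ.2.1, μ.2.2.1, μ.2.2.2 + 1)]

def mpoly (d : ℕ) : List Mono := (fun l : List Mono => l.flatMap mder)^[d] [(qnat 1, 1, 0, 0)]

theorem p_mpoly : Primrec mpoly := by
  have h1 : Primrec mder := by unfold mder; fun_prop
  have h2 : Primrec (fun l : List Mono => l.flatMap mder) :=
    Primrec.list_flatMap (f := fun l : List Mono => l) (g := fun _ => mder) Primrec.id
      (h1.comp Primrec.snd).to₂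
  exact Primrec.nat_iterate (h := fun _ l => List.flatMap mder l) Primrec.id (Primrec.const _)
    (h2.comp Primrec.snd).to₂

theorem st_eq {t : ℝ} (h0 : 0 < t) (h1 : t < 1) :
    smoothTransition t = (1 + exp (t⁻¹ - (1 - t)⁻¹))⁻¹ := by
  have h2 : 0 < 1 - t := by linarith
  simp only [smoothTransition, expNegInvGlue, not_le.2 h0, not_le.2 h2, if_false]
  rw [exp_sub, exp_neg, exp_neg]
  field_simp

theorem hasDerivAt_st {t : ℝ} (h0 : 0 < t) (h1 : t < 1) :
    HasDerivAt smoothTransition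
      (smoothTransition t * (1 - smoothTransition t) * (t⁻¹ ^ 2 + (1 - t)⁻¹ ^ 2)) t := by
  have h2 : 0 < 1 - t := by linarith
  have hU : HasDerivAt (fun s : ℝ => s⁻¹) (-(t ^ 2)⁻¹) t := hasDerivAt_inv h0.ne'
  have hV : HasDerivAt (fun s : ℝ => (1 - s)⁻¹) (-(-1) / (1 - t) ^ 2) t :=
    ((hasDerivAt_id t).const_sub 1).inv h2.ne'
  have hE := ((hU.sub hV).exp.const_add 1).inv (by positivity)
  have : smoothTransition =ᶠ[𝓝 t] fun s => (1 + exp (s⁻¹ - (1 - s)⁻¹))⁻¹ := by
    filter_upwards [Ioo_mem_nhds h0 h1] with s hs using st_eq hs.1 hs.2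
  refine (hE.congr_of_eventuallyEq this).congr_deriv ?_
  rw [st_eq h0 h1]
  simp only [Pi.sub_apply]
  have : 0 < exp (t⁻¹ - (1 - t)⁻¹) := exp_pos _
  generalize exp (t⁻¹ - (1 - t)⁻¹) = E at *
  field_simp
  ring

theorem hasDerivAt_mval (μ : Mono) {t : ℝ} (h0 : 0 < t) (h1 : t < 1) :
    HasDerivAt (mval μ) ((mder μ).map (fun ν => mval ν t)).sum t := by
  obtain ⟨c, i, j, k⟩ := μ
  have h2 : 0 < 1 - t := by linarith
  have hU : HasDerivAt (fun s : ℝ => s⁻¹) (-(t ^ 2)⁻¹) t := hasDerivAt_inv h0.ne'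
  have hV : HasDerivAt (fun s : ℝ => (1 - s)⁻¹) (-(-1) / (1 - t) ^ 2) t :=
    ((hasDerivAt_id t).const_sub 1).inv h2.ne'
  have := (((hasDerivAt_st h0 h1).pow i).mul ((hU.pow j).mul (hV.pow k))).const_mul (qv c)
  refine this.congr_deriv ?_
  simp only [mder, mval, List.map_cons, List.map_nil, List.sum_cons, List.sum_nil, qv_mul, qv_neg,
    qv_nat, Pi.mul_apply, Pi.pow_apply]
  have e1 : ∀ (n : ℕ) (x : ℝ), (n : ℝ) * x ^ (n - 1) * x = n * x ^ n := by
    intro n x; cases n <;> simp [pow_succ, mul_assoc]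
  have e2 : -(t ^ 2)⁻¹ = -(t⁻¹ * t⁻¹) := by rw [← inv_pow, sq]
  have e3 : -(-1) / (1 - t) ^ 2 = (1 - t)⁻¹ * (1 - t)⁻¹ := by field_simp
  rw [e2, e3]
  generalize smoothTransition t = A
  generalize t⁻¹ = U
  generalize (1 - t)⁻¹ = V
  have f1 := e1 i A
  have f2 := e1 j U
  have f3 := e1 k V
  simp only [pow_add, pow_one]
  linear_combination (qv c * (1 - A) * (U ^ 2 + V ^ 2) * U ^ j * V ^ k) * f1
    - (qv c * A ^ i * U * V ^ k) * f2 + (qv c * A ^ i * U ^ j * V) * f3

theorem hasDerivAt_mlist (l : List Mono) {t : ℝ} (h0 : 0 < t) (h1 : t < 1) :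
    HasDerivAt (fun s => (l.map (fun ν => mval ν s)).sum)
      ((l.flatMap mder).map (fun ν => mval ν t)).sum t := by
  induction l with
  | nil => simpa using hasDerivAt_const t (0 : ℝ)
  | cons μ l ih =>
    simp only [List.map_cons, List.sum_cons, List.flatMap_cons, List.map_append, List.sum_append]
    exact (hasDerivAt_mval μ h0 h1).add ih

theorem iteratedDeriv_st_mid (d : ℕ) {t : ℝ} (h0 : 0 < t) (h1 : t < 1) :
    iteratedDeriv d smoothTransition t = ((mpoly d).map (fun ν => mval ν t)).sum := by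
  induction d generalizing t with
  | zero => simp [mpoly, mval]
  | succ d ih =>
    rw [iteratedDeriv_succ]
    have : iteratedDeriv d smoothTransition =ᶠ[𝓝 t]
        fun s => ((mpoly d).map (fun ν => mval ν s)).sum := by
      filter_upwards [Ioo_mem_nhds h0 h1] with s hs using ih hs.1 hs.2
    rw [this.deriv_eq, (hasDerivAt_mlist _ h0 h1).deriv, mpoly, mpoly,
      Function.iterate_succ_apply']

/-- a smooth function that is constant on an open set has the same jets on the closure -/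
theorem iteratedDeriv_closure {p : ℝ → ℝ} (hp : ContDiff ℝ (⊤ : ℕ∞) p) {s : Set ℝ} (hs : IsOpen s)
    {c : ℝ} (h : ∀ x ∈ s, p x = c) (d : ℕ) {t : ℝ} (ht : t ∈ closure s) :
    iteratedDeriv d p t = if d = 0 then c else 0 := by
  have h1 : EqOn (iteratedDeriv d p) (fun _ => if d = 0 then c else 0) s := by
    intro x hx
    have := EqOn.iteratedDeriv_of_isOpen (f := p) (g := fun _ => c) h hs d hx
    rw [this, iteratedDeriv_const]
  exact h1.closure (hp.continuous_iteratedDeriv d (by exact_mod_cast le_top)) continuous_const ht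

theorem iteratedDeriv_st_lo (d : ℕ) {t : ℝ} (h0 : t ≤ 0) :
    iteratedDeriv d smoothTransition t = 0 := by
  have := iteratedDeriv_closure (p := smoothTransition) smoothTransition.contDiff
    (s := Iio 0) isOpen_Iio (c := 0) (fun x hx => smoothTransition.zero_of_nonpos (le_of_lt hx)) d
    (t := t) (by rw [closure_Iio]; exact h0)
  simpa using this

theorem iteratedDeriv_st_hi (d : ℕ) {t : ℝ} (h0 : 1 ≤ t) :
    iteratedDeriv d smoothTransition t = if d = 0 then 1 else 0 :=
  iteratedDeriv_closure (p := smoothTransition) smoothTransition.contDiff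
    (s := Ioi 1) isOpen_Ioi (c := 1) (fun x hx => smoothTransition.one_of_one_le (le_of_lt hx)) d
    (t := t) (by rw [closure_Ioi]; exact h0)

theorem list_sum_range {β : Type} (l : List β) (b : β) (F : β → ℝ) :
    (l.map F).sum = ∑ i ∈ Finset.range l.length, F (l.getD i b) := by
  induction l with
  | nil => simp
  | cons a l ih => rw [List.length_cons, Finset.sum_range_succ']; simp [ih, add_comm]

theorem cr_st : CR (fun z : ℕ × Q => iteratedDeriv z.1 smoothTransition (qv z.2)) := by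
  have hm : Computable mpoly := p_mpoly.to_comp
  have hA : CR (fun q : Q =>
      (1 + exp (qv (qadd (qinv q) (qneg (qinv (qadd (qnat 1) (qneg q)))))))⁻¹) :=
    CR.inv (CR.one.add (CR.exp_q (by fun_prop))) fun q => by
      have := exp_pos (qv (qadd (qinv q) (qneg (qinv (qadd (qnat 1) (qneg q)))))); linarith
  obtain ⟨A, hA, eA⟩ : ∃ A : Q → ℝ, CR A ∧ ∀ q, 0 < qv q → qv q < 1 →
      A q = smoothTransition (qv q) := by
    refine ⟨_, hA, fun q h0 h1 => ?_⟩
    rw [st_eq h0 h1, qv_add, qv_neg, qv_inv _ h0, qv_inv _ (by simp; linarith)]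
    simp [sub_eq_add_neg]
  have hA' : CR (fun w : (ℕ × Q) × ℕ => A w.1.2) := hA.comp (by fun_prop)
  obtain ⟨μ, hμ, eμ⟩ : ∃ μ : (ℕ × Q) × ℕ → Mono, Computable μ ∧
      ∀ w, μ w = (mpoly w.1.1).getD w.2 (qnat 0, 0, 0, 0) := ⟨_, by fun_prop, fun _ => rfl⟩
  have h1 : CR (fun w : (ℕ × Q) × ℕ => qv (μ w).1 * (A w.1.2 ^ (μ w).2.1 *
      (qv (qinv w.1.2) ^ (μ w).2.2.1 * qv (qinv (qadd (qnat 1) (qneg w.1.2))) ^ (μ w).2.2.2))) :=
    CR.mul (by fun_prop) (CR.mul (CR.pow hA' (by fun_prop)) (by fun_prop))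
  have h2 := CR.sum (n := fun z : ℕ × Q => (mpoly z.1).length) h1 (by fun_prop)
  have h3 := CR.cond (b := fun z : ℕ × Q => qle z.2 (qnat 0)) (by fun_prop) CR.zero
    (CR.cond (b := fun z : ℕ × Q => qle (qnat 1) z.2) (by fun_prop)
      (CR.cond (b := fun z : ℕ × Q => Nat.beq z.1 0) (by fun_prop) CR.one CR.zero) h2)
  refine h3.of_eq fun z => ?_
  obtain ⟨d, q⟩ := z
  cases hb : qle q (qnat 0)
  · have h0 : 0 < qv q := by
      by_contra h'
      have := (qle_iff q (qnat 0)).2 (by simpa using h')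
      simp [hb] at this
    cases hc : qle (qnat 1) q
    · have h1 : qv q < 1 := by
        by_contra h'
        have := (qle_iff (qnat 1) q).2 (by simpa using h')
        simp [hc] at this
      simp only [cond_false]
      rw [iteratedDeriv_st_mid d h0 h1, list_sum_range _ (qnat 0, 0, 0, 0)]
      refine Finset.sum_congr rfl fun i _ => ?_
      rw [eμ, eA q h0 h1, qv_inv _ h0, qv_inv _ (by simp; linarith)]
      simp [mval, sub_eq_add_neg]
    · have h1 : 1 ≤ qv q := by simpa using (qle_iff _ _).1 hc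
      simp only [cond_false, cond_true]
      rw [iteratedDeriv_st_hi d h1]
      cases d <;> simp [Nat.beq]
  · have h0 : qv q ≤ 0 := by simpa using (qle_iff _ _).1 hb
    simp only [cond_true]
    rw [iteratedDeriv_st_lo d h0]

end Vale.Agent.P113
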