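import Vale.Agent.P113.Field

/-! The shear maps simulate the two-stack machine. -/

namespace Vale.Agent.P113

open Filter Topology Real Set

/-- the displacement function of window `r` -/
noncomputable def Fw (D : Desc) (w : List ℕ) (r : ℕ) (x : Pt) : ℝ :=
  ∑ j₁ ∈ Finset.range (nB D ^ 3), ∑ j₂ ∈ Finset.range (nB D ^ 3), ∑ e ∈ Finset.range 3,
    co D w r j₁ j₂ e * (pbas (K₁ D r) j₁ (Nat.beq e 0) (x (wdir r + 1)) *
      pbas (K₂ D r) j₂ (Nat.beq e 1) (x (wdir r + 2)))

theorem Fw_update (D : Desc) (w : List ℕ) (r : ℕ) (x : Pt) (s : ℝ) :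
    Fw D w r (Function.update x (wdir r) s) = Fw D w r x := by
  have h1 : ∀ k : Fin 3, k + 1 ≠ k := by decide
  have h2 : ∀ k : Fin 3, k + 2 ≠ k := by decide
  simp only [Fw, Function.update_of_ne (h1 _), Function.update_of_ne (h2 _)]

theorem prod_tg (k : Fin 3) (z : Ix) (x : Pt) : ∏ i, tg k z i (x i) =
    pbas (K₁ z.1.1.1.1.1 z.1.1.1.2) z.1.1.2 (Nat.beq z.2 0) (x (k + 1)) *
      pbas (K₂ z.1.1.1.1.1 z.1.1.1.2) z.1.2 (Nat.beq z.2 1) (x (k + 2)) := by
  fin_cases k <;> simp [Fin.prod_univ_three, tg, mul_comm]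

theorem win_lt (n : ℕ) : win n < 6 := by unfold win; split_ifs <;> omega

theorem vel_eq (D : Desc) (w : List ℕ) :
    vel (D, w) = shear (fun n => wdir (win n)) (fun n => Fw D w (win n)) := by
  funext t x k
  simp only [vel, tot, uterm, sep, prod_tg, shear, Pi.smul_apply, smul_eq_mul]
  rw [Finset.sum_eq_single (win ⌊t⌋.toNat)]
  · have h1 : tau (win ⌊t⌋.toNat) t = theta (Int.fract t) := by
      simp [tau, patch, Nat.beq_refl]
    simp only [h1, tc, ← wdir_val]
    by_cases h : k = wdir (win ⌊t⌋.toNat)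
    · subst h
      simp only [if_true, Pi.single_eq_same, mul_one, Fw, Finset.mul_sum]
      refine Finset.sum_congr rfl fun _ _ => Finset.sum_congr rfl fun _ _ =>
        Finset.sum_congr rfl fun _ _ => by ring
    · have h' : ¬ ((wdir (win ⌊t⌋.toNat) : ℕ) = k) := fun e => h (Fin.ext e.symm)
      simp [h', Pi.single_eq_of_ne h]
  · intro r _ hr
    have : Nat.beq (win ⌊t⌋.toNat) r = false := by
      rw [Bool.eq_false_iff]; simpa using hr.symm
    simp [tau, patch, this]
  · intro h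
    exact absurd (Finset.mem_range.2 (win_lt _)) h

theorem nB_ge (D : Desc) : 2 ≤ nB D := by have := nC_lt_nN D; unfold nB; omega

/-- a value together with its leading digits -/
structure Dig (K j : ℕ) (v : ℝ) : Prop where
  nonneg : 0 ≤ v
  le_half : v ≤ 1 / 2
  lo : (j : ℝ) ≤ K * v
  hi : K * v ≤ j + 1 / 2

theorem Dig.lt {K j N : ℕ} {v : ℝ} (h : Dig K j v) (h0 : 0 < K) (hK : K ≤ N) : j < N := by
  have h1 : (0 : ℝ) < K := by exact_mod_cast h0
  have : (j : ℝ) < K := by nlinarith [h.lo, h.le_half]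
  have : j < K := by exact_mod_cast this
  omega

theorem Dig.one {K j : ℕ} {v : ℝ} (h : Dig K j v) : Dig 1 0 v :=
  ⟨h.nonneg, h.le_half, by simpa using h.nonneg, by simpa using h.le_half⟩

theorem K₁_bd (D : Desc) (r : ℕ) : 0 < K₁ D r ∧ K₁ D r ≤ nB D ^ 3 := by
  have h := nB_ge D
  have h1 : nB D ^ 1 ≤ nB D ^ 3 := Nat.pow_le_pow_right (by omega) (by omega)
  have h2 : nB D ^ 2 ≤ nB D ^ 3 := Nat.pow_le_pow_right (by omega) (by omega)
  have h3 : 0 < nB D ^ 2 := by positivity
  rw [pow_one] at h1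
  unfold K₁; split_ifs <;> omega

theorem K₂_bd (D : Desc) (r : ℕ) : 0 < K₂ D r ∧ K₂ D r ≤ nB D ^ 3 := by
  have h := nB_ge D
  have h2 : nB D ^ 2 ≤ nB D ^ 3 := Nat.pow_le_pow_right (by omega) (by omega)
  have h3 : 0 < nB D ^ 2 := by positivity
  unfold K₂; split_ifs <;> omega

theorem Fw_eval {D : Desc} (w : List ℕ) {r j₁ j₂ : ℕ} {x : Pt} {v₁ v₂ : ℝ}
    (e₁ : x (wdir r + 1) = 1 / 4 + v₁) (e₂ : x (wdir r + 2) = 1 / 4 + v₂)
    (h₁ : Dig (K₁ D r) j₁ v₁) (h₂ : Dig (K₂ D r) j₂ v₂) :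
    Fw D w r x = co D w r j₁ j₂ 0 * v₁ + co D w r j₁ j₂ 1 * v₂ + co D w r j₁ j₂ 2 := by
  have l₁ := h₁.lt (K₁_bd D r).1 (K₁_bd D r).2
  have l₂ := h₂.lt (K₂_bd D r).1 (K₂_bd D r).2
  simp only [Fw, e₁, e₂, pbas_sel _ h₁.nonneg h₁.le_half h₁.lo h₁.hi,
    pbas_sel _ h₂.nonneg h₂.le_half h₂.lo h₂.hi]
  rw [Finset.sum_eq_single j₁, Finset.sum_eq_single j₂]
  · simp [Finset.sum_range_succ, Nat.beq]
  · intro b _ hb; simp [hb]
  · intro h; exact absurd (Finset.mem_range.2 l₂) h
  · intro b _ hb; simp [hb]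
  · intro h; exact absurd (Finset.mem_range.2 l₁) h

theorem enc_bd {D : Desc} {l : List ℕ} (h : ∀ a ∈ l, a < nN D) :
    0 ≤ enc (nB D) l ∧ enc (nB D) l ≤ 1 / 2 := by
  induction l with
  | nil => simp [enc]
  | cons s l ih =>
    obtain ⟨h0, h1⟩ := ih fun a ha => h a (List.mem_cons_of_mem _ ha)
    have h2 : (s : ℝ) + 1 ≤ nN D := by exact_mod_cast h s (by simp)
    have h3 : (0 : ℝ) < nB D := by have := nB_ge D; positivity
    refine ⟨by simp only [enc]; positivity, ?_⟩
    have h4 : (nB D : ℝ) = 2 * nN D := by simp [nB]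
    rw [enc, div_le_iff₀ h3]; linarith

theorem enc_head (D : Desc) (l : List ℕ) :
    nB D * enc (nB D) l = (l.headD 0 : ℕ) + enc (nB D) l.tail := by
  have h3 : (0 : ℝ) < nB D := by have := nB_ge D; positivity
  cases l with
  | nil => simp [enc]
  | cons s l => simp only [enc, List.headD_cons, List.tail_cons]; field_simp

theorem tail_bd {N : ℕ} {l : List ℕ} (h : ∀ a ∈ l, a < N) : ∀ a ∈ l.tail, a < N :=
  fun a ha => h a (List.mem_of_mem_tail ha)

theorem dig1 {D : Desc} {l : List ℕ} (h : ∀ a ∈ l, a < nN D) :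
    Dig (nB D) (l.headD 0) (enc (nB D) l) := by
  have h1 := enc_bd (tail_bd h)
  exact ⟨(enc_bd h).1, (enc_bd h).2, by rw [enc_head]; linarith, by rw [enc_head]; linarith⟩

theorem dig2 {D : Desc} {l : List ℕ} (h : ∀ a ∈ l, a < nN D) :
    Dig (nB D ^ 2) (l.headD 0 * nB D + l.tail.headD 0) (enc (nB D) l) := by
  have h1 := enc_bd (tail_bd (tail_bd h))
  have e : ((nB D ^ 2 : ℕ) : ℝ) * enc (nB D) l
      = ((l.headD 0 * nB D + l.tail.headD 0 : ℕ) : ℝ) + enc (nB D) l.tail.tail := by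
    push_cast
    linear_combination (nB D : ℝ) * enc_head D l + enc_head D l.tail
  exact ⟨(enc_bd h).1, (enc_bd h).2, by rw [e]; linarith, by rw [e]; linarith⟩

theorem dig3 {D : Desc} {l : List ℕ} (h : ∀ a ∈ l, a < nN D) :
    Dig (nB D ^ 3) ((l.headD 0 * nB D + l.tail.headD 0) * nB D + l.tail.tail.headD 0)
      (enc (nB D) l) := by
  have h1 := enc_bd (tail_bd (tail_bd (tail_bd h)))
  have e : ((nB D ^ 3 : ℕ) : ℝ) * enc (nB D) l
      = (((l.headD 0 * nB D + l.tail.headD 0) * nB D + l.tail.tail.headD 0 : ℕ) : ℝ)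
        + enc (nB D) l.tail.tail.tail := by
    push_cast
    linear_combination (nB D : ℝ) ^ 2 * enc_head D l + (nB D : ℝ) * enc_head D l.tail
      + enc_head D l.tail.tail
  exact ⟨(enc_bd h).1, (enc_bd h).2, by rw [e]; linarith, by rw [e]; linarith⟩

theorem dm {B a b : ℕ} (h : b < B) : (a * B + b) / B = a ∧ (a * B + b) % B = b := by
  have h0 : 0 < B := by omega
  constructor
  · rw [add_comm, Nat.add_mul_div_right _ _ h0, Nat.div_eq_of_lt h, zero_add]
  · rw [add_comm, Nat.add_mul_mod_self_right, Nat.mod_eq_of_lt h]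

theorem lt_nB {D : Desc} {a : ℕ} (h : a < nN D) : a < nB D := by unfold nB; omega

noncomputable def vec (x y z : ℝ) : Pt := ![1 / 4 + x, 1 / 4 + y, 1 / 4 + z]

/-- the shear map of window `r` -/
noncomputable def smap (D : Desc) (w : List ℕ) (r : ℕ) (x : Pt) : Pt :=
  x + Fw D w r x • (Pi.single (wdir r) 1 : Pt)

theorem vec_add0 (x y z c : ℝ) : vec x y z + c • (Pi.single 0 1 : Pt) = vec (x + c) y z := by
  funext i; fin_cases i <;> simp [vec, add_assoc]
theorem vec_add1 (x y z c : ℝ) : vec x y z + c • (Pi.single 1 1 : Pt) = vec x (y + c) z := by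
  funext i; fin_cases i <;> simp [vec, add_assoc]
theorem vec_add2 (x y z c : ℝ) : vec x y z + c • (Pi.single 2 1 : Pt) = vec x y (z + c) := by
  funext i; fin_cases i <;> simp [vec, add_assoc]

theorem smap0 (D : Desc) (w : List ℕ) : smap D w 0 (vec 0 0 0) = vec 0 0 (enc (nB D) w) := by
  have h : Dig 1 0 0 := ⟨le_rfl, by norm_num, by simp, by simp⟩
  rw [smap, Fw_eval w (r := 0) (j₁ := 0) (j₂ := 0) (v₁ := 0) (v₂ := 0) rfl rfl h h]
  simp [wdir, vec_add2, co, pick]

variable {D : Desc} {S : St}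

noncomputable def cx (D : Desc) (S : St) : ℝ := enc (nB D) (S.1 :: S.2.1)
noncomputable def cz (D : Desc) (S : St) : ℝ := enc (nB D) S.2.2
noncomputable def cy (D : Desc) (S : St) : ℝ := enc (nB D) (S.1 :: popped S :: S.2.2)

theorem Bd.x (h : Bd D S) : ∀ a ∈ S.1 :: S.2.1, a < nN D := by
  simpa using ⟨st_lt_nN h.st, h.left⟩
theorem Bd.y (h : Bd D S) : ∀ a ∈ S.1 :: P113.popped S :: S.2.2, a < nN D := by
  simpa using ⟨st_lt_nN h.st, h.popped, h.right⟩

theorem cy_eq (D : Desc) (S : St) :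
    (nB D : ℝ) ^ 2 * cy D S = S.1 * nB D + popped S + cz D S := by
  have h3 : (0 : ℝ) < nB D := by have := nB_ge D; positivity
  simp only [cy, cz, enc]; field_simp; ring

theorem relx (D : Desc) (S : St) :
    xP D S.1 * cx D S - xU D S.1 (popped S) = enc (nB D) (restL S) := by
  have h1 := enc_head D (S.1 :: S.2.1)
  have h2 := enc_head D S.2.1
  simp only [List.headD_cons, List.tail_cons] at h1
  by_cases hd : S.1 % 2 = 0
  · simp only [xP, xU, restL, cx, hd, if_true]; linarith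
  · simp only [xP, xU, restL, cx, popped, hd, if_false]; push_cast
    linear_combination (nB D : ℝ) * h1 + h2

theorem relz (D : Desc) (S : St) :
    zP D S.1 * cz D S - zU S.1 (popped S) = enc (nB D) (restR S) := by
  have h2 := enc_head D S.2.2
  by_cases hd : S.1 % 2 = 0
  · simp only [zP, zU, restR, cz, popped, hd, if_true]; linarith
  · simp [zP, zU, restR, cz, hd]

theorem relx' (D : Desc) (S : St) :
    xP' D S.1 (popped S) * cx D (sstep D S) - xU' D S.1 (popped S) = enc (nB D) (restL S) := by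
  have h3 : (0 : ℝ) < nB D := by have := nB_ge D; positivity
  simp only [xP', xU', cx, sstep]
  split_ifs <;> simp only [enc] <;> push_cast <;> field_simp <;> ring

theorem relz' (D : Desc) (S : St) :
    zP' D S.1 (popped S) * cz D (sstep D S) - zU' D S.1 (popped S) = enc (nB D) (restR S) := by
  have h3 : (0 : ℝ) < nB D := by have := nB_ge D; positivity
  simp only [zP', zU', cz, sstep]
  split_ifs <;> (try simp only [enc]) <;> push_cast <;> field_simp <;> ring

theorem xP_pos (D : Desc) (σ : ℕ) : (0 : ℝ) < xP D σ := by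
  have := nB_ge D; unfold xP; split_ifs <;> positivity
theorem zP_pos (D : Desc) (σ : ℕ) : (0 : ℝ) < zP D σ := by
  have := nB_ge D; unfold zP; split_ifs <;> positivity
theorem xP'_pos (D : Desc) (σ s : ℕ) : (0 : ℝ) < xP' D σ s := by
  have := nB_ge D; unfold xP'; split_ifs <;> positivity
theorem zP'_pos (D : Desc) (σ s : ℕ) : (0 : ℝ) < zP' D σ s := by
  have := nB_ge D; unfold zP'; split_ifs <;> positivity

theorem Fw1 (w : List ℕ) (h : Bd D S) : Fw D w 1 (vec (cx D S) 0 (cz D S))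
    = cond (hlt D S.1) (5 / 8) (cy D S) := by
  have h3 : (0 : ℝ) < nB D := by have := nB_ge D; positivity
  have h0 : 0 < nN D := lt_of_le_of_lt (Nat.zero_le _) (nC_lt_nN D)
  have hl := dm (a := S.1) (lt_nB (headD_lt h0 h.left))
  rw [Fw_eval w (r := 1) (v₁ := cz D S) (v₂ := cx D S) rfl rfl (dig1 h.right) (dig2 h.x)]
  have e1 : iσ D 1 (S.2.2.headD 0) (S.1 * nB D + S.2.1.headD 0) = S.1 := by simp only [iσ, hl]; simp
  have e2 : is D 1 (S.2.2.headD 0) (S.1 * nB D + S.2.1.headD 0) = popped S := by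
    simp only [is, hl, popped, if_true]
  simp only [List.headD_cons, List.tail_cons, co, e1, e2, coI, one_ne_zero, if_false, if_true]
  cases hlt D S.1
  · have := cy_eq D S
    simp only [cond_false, pick]; norm_num; field_simp; linarith
  · simp only [cond_true, pick]; norm_num

theorem inst_mid (h : Bd D S) :
    (S.1 * nB D + popped S) / nB D = S.1 ∧ (S.1 * nB D + popped S) % nB D = popped S :=
  dm (lt_nB h.popped)

theorem smap2 (w : List ℕ) (h : Bd D S) : smap D w 2 (vec (cx D S) (cy D S) (cz D S))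
    = vec (cx D S) (cy D S) (cx D S) := by
  rw [smap, Fw_eval w (r := 2) (j₁ := 0) (v₁ := cx D S) (v₂ := cy D S) rfl rfl (dig1 h.x).one
    (dig2 h.y)]
  have := cy_eq D S
  simp only [List.headD_cons, List.tail_cons, co, coI, iσ, is, inst_mid h, wdir, pick]
  norm_num
  rw [vec_add2]; congr 1; linarith

theorem smap3 (w : List ℕ) (h : Bd D S) : smap D w 3 (vec (cx D S) (cy D S) (cx D S))
    = vec (cx D (sstep D S)) (cy D S) (cx D S) := by
  rw [smap, Fw_eval w (r := 3) (j₂ := 0) (v₁ := cy D S) (v₂ := cx D S) rfl rfl (dig2 h.y)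
    (dig1 h.x).one]
  have h1 := relx D S
  have h2 := relx' D S
  have h3 := xP'_pos D S.1 (popped S)
  simp only [List.headD_cons, List.tail_cons, co, coI, iσ, is, inst_mid h, wdir, pick]
  norm_num
  rw [vec_add0]; congr 1; field_simp; linarith

theorem smap4 (w : List ℕ) (h : Bd D S) (h' : Bd D (sstep D S)) :
    smap D w 4 (vec (cx D (sstep D S)) (cy D S) (cx D S))
    = vec (cx D (sstep D S)) (cy D S) (cz D (sstep D S)) := by
  rw [smap, Fw_eval w (r := 4) (j₁ := 0) (v₁ := cx D (sstep D S)) (v₂ := cy D S) rfl rfl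
    (dig1 h'.x).one (dig2 h.y)]
  have h0 := cy_eq D S
  have h1 := relx D S
  have h2 := relx' D S
  have h3 := relz D S
  have h4 := relz' D S
  have h5 := xP_pos D S.1
  have h6 := zP'_pos D S.1 (popped S)
  simp only [List.headD_cons, List.tail_cons, co, coI, iσ, is, inst_mid h, wdir, pick]
  norm_num
  rw [vec_add2]; congr 1; field_simp
  linear_combination (zP' D S.1 (popped S) : ℝ) * (h1 - h2) + (xP D S.1 : ℝ) * (h3 - h4)
    + (xP D S.1 : ℝ) * (zP D S.1 : ℝ) * h0

theorem ns_parity (D : Desc) (σ s : ℕ) : ns D σ s % 2 = 0 ↔ mv D σ s ≠ 0 := by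
  unfold ns mv; split_ifs <;> omega

theorem decode5 (h : Bd D S) (h' : Bd D (sstep D S)) :
    iσ D 5 ((sstep D S).2.2.headD 0 * nB D + (sstep D S).2.2.tail.headD 0)
      (((sstep D S).1 * nB D + (sstep D S).2.1.headD 0) * nB D + (sstep D S).2.1.tail.headD 0)
      = S.1 ∧
    is D 5 ((sstep D S).2.2.headD 0 * nB D + (sstep D S).2.2.tail.headD 0)
      (((sstep D S).1 * nB D + (sstep D S).2.1.headD 0) * nB D + (sstep D S).2.1.tail.headD 0)
      = popped S := by
  have h0 : 0 < nN D := lt_of_le_of_lt (Nat.zero_le _) (nC_lt_nN D)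
  have a1 := dm (a := (sstep D S).2.2.headD 0) (lt_nB (headD_lt h0 (tail_bd h'.right)))
  have a2 := dm (a := (sstep D S).1 * nB D + (sstep D S).2.1.headD 0)
    (lt_nB (headD_lt h0 (tail_bd h'.left)))
  have a3 := dm (a := (sstep D S).1) (lt_nB (headD_lt h0 h'.left))
  have a4 : (((sstep D S).1 * nB D + (sstep D S).2.1.headD 0) * nB D
      + (sstep D S).2.1.tail.headD 0) / nB D ^ 2 = (sstep D S).1 := by
    rw [sq, ← Nat.div_div_eq_div_mul, a2.1, a3.1]
  have par := ns_parity D S.1 (popped S)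
  have e1 : drc D ((sstep D S).2.2.headD 0 * nB D + (sstep D S).2.2.tail.headD 0)
      (((sstep D S).1 * nB D + (sstep D S).2.1.headD 0) * nB D + (sstep D S).2.1.tail.headD 0)
      = rc D S.1 (popped S) := by
    rw [drc, a4, a2.1, a3.2, a1.1]
    by_cases m0 : mv D S.1 (popped S) = 0
    · have : ¬ ns D S.1 (popped S) % 2 = 0 := fun e => par.1 e m0
      simp [sstep, m0, this]
    · have := par.2 m0
      by_cases m2 : mv D S.1 (popped S) = 2 <;> simp [sstep, m0, m2, this]
  have e2 : ¬ popped S < nC D →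
      dws D ((sstep D S).2.2.headD 0 * nB D + (sstep D S).2.2.tail.headD 0)
      (((sstep D S).1 * nB D + (sstep D S).2.1.headD 0) * nB D + (sstep D S).2.1.tail.headD 0)
      = popped S := by
    intro hj
    rw [dws, a4, a2.2, a1.2]
    have m1 : mv D S.1 (popped S) = 2 ∨ mv D S.1 (popped S) = 0 := by
      simp only [mv, hj, if_false]; split_ifs <;> simp
    have m2 : ws D S.1 (popped S) = popped S := by simp [ws, hj]
    simp only [sstep, m2]
    split_ifs <;> first | rfl | omega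
  have a5 := dm (B := nC D + 1) (a := S.1) (b := min (popped S) (nC D))
    (Nat.lt_succ_of_le (min_le_right _ _))
  have a6 : rc D S.1 (popped S) - nC D = S.1 * (nC D + 1) + min (popped S) (nC D) := by
    simp [rc]
  constructor
  · simp only [iσ, e1, a6, a5]; simp
  · simp only [is, e1, a6, a5]
    by_cases hj : popped S < nC D
    · simp [hj, min_eq_left hj.le]
    · simp only [e2 hj, min_eq_right (not_lt.1 hj)]; simp

theorem smap5 (w : List ℕ) (h : Bd D S) (h' : Bd D (sstep D S)) :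
    smap D w 5 (vec (cx D (sstep D S)) (cy D S) (cz D (sstep D S)))
    = vec (cx D (sstep D S)) 0 (cz D (sstep D S)) := by
  rw [smap, Fw_eval w (r := 5) (v₁ := cz D (sstep D S)) (v₂ := cx D (sstep D S)) rfl rfl
    (dig2 h'.right) (dig3 h'.x)]
  have h0 := cy_eq D S
  have h3 := relz D S
  have h4 := relz' D S
  have h5 := zP_pos D S.1
  have h6 : (0 : ℝ) < nB D := by have := nB_ge D; positivity
  simp only [List.headD_cons, List.tail_cons, co, decode5 h h', coI, wdir, pick]
  norm_num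
  rw [vec_add1]; congr 1; field_simp
  linear_combination (h3 - h4) + (zP D S.1 : ℝ) * h0

end Vale.Agent.P113
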